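import Vale.Agent.Lib.P154N.Assemble

/-!
# The inequality of the second power sum for the scale one half
-/

namespace Vale.Agent.Lib.P154N.D4

open Vale.Agent.Lib.P154 Vale.Agent.Lib.P154GW Vale.Agent.Lib.P154K Vale.Agent.Lib.P154Neg Tp

/-- The parameters. -/
def Pp : Par := ⟨2, 4, 16777216, 128⟩

/-- The data. -/
def XP : Ctx := ⟨Pp, LP2, [(1, 0, 1000)], [(1, 0, 1190), (2, 0, 3500)], 0, 0, 667⟩

noncomputable section

theorem okP : XP.OK :=
  Ctx.ok_of_check (by decide +kernel) fun c _ => by
    simp only [XP, LP2, potL, List.map_cons, List.map_nil, List.sum_cons, List.sum_nil]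
    push_cast
    have := p2T_nonneg c
    positivity

theorem topP : RT.top.good XP := fun c hc => by
  have := p2T_le_of_inSx hc
  simp only [XP, LP2, potL, List.map_cons, List.map_nil, List.sum_cons, List.sum_nil]
  push_cast
  simp only [pow_zero, pow_one, mul_one, add_zero]
  linarith

/-- A bound of a rotation. -/
def PR0 : RT := .q [(0, 130405526), (1, -389905905), (2, 563609305), (3, -395236919), (4, 107905209)] 48 128
theorem PG0 (X : Ctx) (h : X.P = Pp) : PR0.good X :=
  good_of_check h (pts := [(128, 32)]) (by decide +kernel)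
/-- A bound of a rotation. -/
def PR1 : RT := .q [(0, 74823707), (1, -132382716), (2, 116082809), (3, -50426218), (4, 8679634)] 120 192
theorem PG1 (X : Ctx) (h : X.P = Pp) : PR1.good X :=
  good_of_check h (pts := [(128, 1), (192, 16)]) (by decide +kernel)
/-- A bound of a rotation. -/
def PR2 : RT := .q [(0, 82872118), (1, -162164731), (2, 157250692), (3, -75609583), (4, 14428720)] 96 168
theorem PG2 (X : Ctx) (h : X.P = Pp) : PR2.good X :=
  good_of_check h (pts := [(128, 1), (168, 8)]) (by decide +kernel)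
/-- A bound of a rotation. -/
def PR3 : RT := .q [(0, 108600146), (1, -277728737), (2, 350934709), (3, -219197711), (4, 54168809)] 72 128
theorem PG3 (X : Ctx) (h : X.P = Pp) : PR3.good X :=
  good_of_check h (pts := [(128, 32)]) (by decide +kernel)
/-- A bound of a rotation. -/
def PR4 : RT := .q [(0, 77921016), (1, -144163248), (2, 132790876), (3, -60889992), (4, 11118564)] 120 168
theorem PG4 (X : Ctx) (h : X.P = Pp) : PR4.good X :=
  good_of_check h (pts := [(128, 1), (168, 8)]) (by decide +kernel)
/-- A bound of a rotation. -/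
def PR5 : RT := .q [(0, 73671805), (1, -128464324), (2, 111135990), (3, -47680148), (4, 8113893)] 128 192
theorem PG5 (X : Ctx) (h : X.P = Pp) : PR5.good X :=
  good_of_check h (pts := [(192, 8)]) (by decide +kernel)
/-- A bound of a rotation. -/
def PR6 : RT := .q [(0, 85454964), (1, -172947855), (2, 173966457), (3, -87023125), (4, 17326775)] 96 156
theorem PG6 (X : Ctx) (h : X.P = Pp) : PR6.good X :=
  good_of_check h (pts := [(128, 1), (156, 8)]) (by decide +kernel)
/-- A bound of a rotation. -/
def PR7 : RT := .q [(0, 76779876), (1, -140075729), (2, 127325372), (3, -57656981), (4, 10404678)] 128 168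
theorem PG7 (X : Ctx) (h : X.P = Pp) : PR7.good X :=
  good_of_check h (pts := [(168, 8)]) (by decide +kernel)
/-- A bound of a rotation. -/
def PR8 : RT := .q [(0, 80961574), (1, -155730972), (2, 149257007), (3, -71281314), (4, 13570921)] 112 156
theorem PG8 (X : Ctx) (h : X.P = Pp) : PR8.good X :=
  good_of_check h (pts := [(128, 1), (156, 6)]) (by decide +kernel)
/-- A bound of a rotation. -/
def PR9 : RT := .q [(0, 66170700), (1, -103984406), (2, 81397302), (3, -31741102), (4, 4933125)] 136 192
theorem PG9 (X : Ctx) (h : X.P = Pp) : PR9.good X :=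
  good_of_check h (pts := [(192, 2)]) (by decide +kernel)
/-- A bound of a rotation. -/
def PR10 : RT := .q [(0, 217282209), (1, -1038745944), (2, 2337990344), (3, -2503546704), (4, 1028370485)] 24 96
theorem PG10 (X : Ctx) (h : X.P = Pp) : PR10.good X :=
  good_of_check h (pts := [(96, 24)]) (by decide +kernel)
/-- A bound of a rotation. -/
def PR11 : RT := .q [(0, 69657931), (1, -115447968), (2, 95484157), (3, -39411302), (4, 6494631)] 136 174
theorem PG11 (X : Ctx) (h : X.P = Pp) : PR11.good X :=
  good_of_check h (pts := [(174, 1)]) (by decide +kernel)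
/-- A bound of a rotation. -/
def PR12 : RT := .q [(0, 64391774), (1, -98582547), (2, 75266094), (3, -28658172), (4, 4353643)] 144 192
theorem PG12 (X : Ctx) (h : X.P = Pp) : PR12.good X :=
  good_of_check h (pts := [(192, 1)]) (by decide +kernel)
/-- A bound of a rotation. -/
def PR13 : RT := .q [(0, 65264349), (1, -101217393), (2, 78240791), (3, -30146369), (4, 4632029)] 140 192
theorem PG13 (X : Ctx) (h : X.P = Pp) : PR13.good X :=
  good_of_check h (pts := [(192, 2)]) (by decide +kernel)
/-- A bound of a rotation. -/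
def PR14 : RT := .q [(0, 63550766), (1, -96070306), (2, 72458814), (3, -27267386), (4, 4095882)] 148 192
theorem PG14 (X : Ctx) (h : X.P = Pp) : PR14.good X :=
  good_of_check h (pts := [(192, 1)]) (by decide +kernel)
/-- A bound of a rotation. -/
def PR15 : RT := .q [(0, 238652529), (1, -1283653997), (2, 3298679012), (3, -4075059652), (4, 1945981723)] 24 80
theorem PG15 (X : Ctx) (h : X.P = Pp) : PR15.good X :=
  good_of_check h (pts := [(80, 32)]) (by decide +kernel)
/-- A bound of a rotation. -/
def PR16 : RT := .q [(0, 69307892), (1, -114366207), (2, 94237515), (3, -38776861), (4, 6374412)] 140 171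
theorem PG16 (X : Ctx) (h : X.P = Pp) : PR16.good X :=
  good_of_check h (pts := [(171, 1)]) (by decide +kernel)
/-- A bound of a rotation. -/
def PR17 : RT := .q [(0, 62739379), (1, -93672198), (2, 69806197), (3, -25965938), (4, 3856908)] 152 192
theorem PG17 (X : Ctx) (h : X.P = Pp) : PR17.good X :=
  good_of_check h (pts := [(192, 1)]) (by decide +kernel)
/-- A bound of a rotation. -/
def PR18 : RT := .q [(0, 61574057), (1, -90272598), (2, 66092585), (3, -24165708), (4, 3530140)] 158 192
theorem PG18 (X : Ctx) (h : X.P = Pp) : PR18.good X :=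
  good_of_check h (pts := [(192, 1)]) (by decide +kernel)
/-- A bound of a rotation. -/
def PR19 : RT := .q [(0, 65608529), (1, -102543966), (2, 80079885), (3, -31247096), (4, 4873742)] 152 176
theorem PG19 (X : Ctx) (h : X.P = Pp) : PR19.good X :=
  good_of_check h (pts := [(176, 1)]) (by decide +kernel)
/-- A bound of a rotation. -/
def PR20 : RT := .q [(0, 67360150), (1, -108027621), (2, 86511555), (3, -34596537), (4, 5527215)] 144 176
theorem PG20 (X : Ctx) (h : X.P = Pp) : PR20.good X :=
  good_of_check h (pts := [(176, 1)]) (by decide +kernel)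
/-- A bound of a rotation. -/
def PR21 : RT := .q [(0, 78127948), (1, -145181678), (2, 134558885), (3, -62198448), (4, 11470509)] 128 160
theorem PG21 (X : Ctx) (h : X.P = Pp) : PR21.good X :=
  good_of_check h (pts := [(160, 6)]) (by decide +kernel)
/-- A bound of a rotation. -/
def PR22 : RT := .q [(0, 76128504), (1, -136821636), (2, 121687405), (3, -53537838), (4, 9320781)] 112 192
theorem PG22 (X : Ctx) (h : X.P = Pp) : PR22.good X :=
  good_of_check h (pts := [(128, 1), (192, 24)]) (by decide +kernel)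
/-- A bound of a rotation. -/
def PR23 : RT := .q [(0, 120287846), (1, -328502284), (2, 433321389), (3, -278401230), (4, 70071495)] 48 144
theorem PG23 (X : Ctx) (h : X.P = Pp) : PR23.good X :=
  good_of_check h (pts := [(128, 32), (144, 1)]) (by decide +kernel)
/-- A bound of a rotation. -/
def PR24 : RT := .q [(0, 88897291), (1, -187628427), (2, 197275460), (3, -103368723), (4, 21601615)] 96 144
theorem PG24 (X : Ctx) (h : X.P = Pp) : PR24.good X :=
  good_of_check h (pts := [(128, 1), (144, 8)]) (by decide +kernel)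
/-- A bound of a rotation. -/
def PR25 : RT := .q [(0, 93941127), (1, -208679895), (2, 230177680), (3, -126194103), (4, 27532407)] 84 144
theorem PG25 (X : Ctx) (h : X.P = Pp) : PR25.good X :=
  good_of_check h (pts := [(128, 32), (144, 1)]) (by decide +kernel)
/-- A bound of a rotation. -/
def PR26 : RT := .q [(0, 75111141), (1, -133809755), (2, 118537281), (3, -52203781), (4, 9142330)] 128 180
theorem PG26 (X : Ctx) (h : X.P = Pp) : PR26.good X :=
  good_of_check h (pts := [(180, 8)]) (by decide +kernel)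
/-- A bound of a rotation. -/
def PR27 : RT := .q [(0, 95480015), (1, -216687177), (2, 245133630), (3, -138239709), (4, 31090457)] 96 128
theorem PG27 (X : Ctx) (h : X.P = Pp) : PR27.good X :=
  good_of_check h (pts := [(128, 6)]) (by decide +kernel)
/-- A bound of a rotation. -/
def PR28 : RT := .q [(0, 101347313), (1, -243281359), (2, 290119824), (3, -171898743), (4, 40490181)] 84 128
theorem PG28 (X : Ctx) (h : X.P = Pp) : PR28.good X :=
  good_of_check h (pts := [(128, 24)]) (by decide +kernel)
/-- A bound of a rotation. -/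
def PR29 : RT := .q [(0, 92252586), (1, -202278488), (2, 221130771), (3, -120550342), (4, 26222689)] 96 136
theorem PG29 (X : Ctx) (h : X.P = Pp) : PR29.good X :=
  good_of_check h (pts := [(128, 8), (136, 1)]) (by decide +kernel)
/-- A bound of a rotation. -/
def PR30 : RT := .q [(0, 70197771), (1, -116641580), (2, 96237261), (3, -39434169), (4, 6421189)] 120 192
theorem PG30 (X : Ctx) (h : X.P = Pp) : PR30.good X :=
  good_of_check h (pts := [(192, 3)]) (by decide +kernel)
/-- A bound of a rotation. -/
def PR31 : RT := .q [(0, 75323593), (1, -134765323), (2, 120127340), (3, -53352048), (4, 9445426)] 120 168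
theorem PG31 (X : Ctx) (h : X.P = Pp) : PR31.good X :=
  good_of_check h (pts := [(168, 2)]) (by decide +kernel)
/-- A bound of a rotation. -/
def PR32 : RT := .q [(0, 67113494), (1, -106894931), (2, 84752549), (3, -33453054), (4, 5259365)] 132 192
theorem PG32 (X : Ctx) (h : X.P = Pp) : PR32.good X :=
  good_of_check h (pts := [(192, 2)]) (by decide +kernel)
/-- A bound of a rotation. -/
def PR33 : RT := .q [(0, 71963756), (1, -123227668), (2, 105309285), (3, -44916280), (4, 7649249)] 132 168
theorem PG33 (X : Ctx) (h : X.P = Pp) : PR33.good X :=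
  good_of_check h (pts := [(168, 1)]) (by decide +kernel)
/-- A bound of a rotation. -/
def PR34 : RT := .q [(0, 60466226), (1, -87090057), (2, 62667453), (3, -22529055), (4, 3237169)] 164 192
theorem PG34 (X : Ctx) (h : X.P = Pp) : PR34.good X :=
  good_of_check h (pts := [(192, 1)]) (by decide +kernel)
/-- A bound of a rotation. -/
def PR35 : RT := .q [(0, 63141484), (1, -94857479), (2, 71113914), (3, -26605964), (4, 3974153)] 150 192
theorem PG35 (X : Ctx) (h : X.P = Pp) : PR35.good X :=
  good_of_check h (pts := [(192, 1)]) (by decide +kernel)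
/-- A bound of a rotation. -/
def PR36 : RT := .q [(0, 66468549), (1, -105221222), (2, 83202741), (3, -32864680), (4, 5187681)] 148 176
theorem PG36 (X : Ctx) (h : X.P = Pp) : PR36.good X :=
  good_of_check h (pts := [(176, 1)]) (by decide +kernel)
/-- A bound of a rotation. -/
def PR37 : RT := .q [(0, 70245571), (1, -117321378), (2, 97715860), (3, -40588475), (4, 6726600)] 132 176
theorem PG37 (X : Ctx) (h : X.P = Pp) : PR37.good X :=
  good_of_check h (pts := [(176, 1)]) (by decide +kernel)
/-- A bound of a rotation. -/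
def PR38 : RT := .q [(0, 79215468), (1, -149154098), (2, 139983715), (3, -65480928), (4, 12213059)] 120 160
theorem PG38 (X : Ctx) (h : X.P = Pp) : PR38.good X :=
  good_of_check h (pts := [(128, 1), (160, 6)]) (by decide +kernel)
/-- A bound of a rotation. -/
def PR39 : RT := .q [(0, 84524273), (1, -169039400), (2, 167866784), (3, -82826380), (4, 16251939)] 96 160
theorem PG39 (X : Ctx) (h : X.P = Pp) : PR39.good X :=
  good_of_check h (pts := [(128, 1), (160, 12)]) (by decide +kernel)
theorem pl0 : HoldsN XP (Trg.left (chamber 1 1)) (Trg.left (chamberN 1 2)) :=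
  leaf okP (PG3 _ rfl) (PG4 _ rfl) (PG4 _ rfl) (by decide +kernel)
theorem pl1 : HoldsN XP (Trg.left (chamber 1 1)) (Trg.left (Trg.right (chamberN 1 2))) :=
  leaf okP (PG0 _ rfl) (PG5 _ rfl) (PG6 _ rfl) (by decide +kernel)
theorem pl2 : HoldsN XP (Trg.left (chamber 1 1)) (Trg.right (Trg.right (chamberN 1 2))) :=
  leaf okP (PG3 _ rfl) (PG7 _ rfl) (PG8 _ rfl) (by decide +kernel)
theorem pl3 : HoldsN XP (Trg.left (Trg.right (chamber 1 1))) (Trg.left (chamberN 1 2)) :=
  leaf okP (PG0 _ rfl) (PG6 _ rfl) (PG5 _ rfl) (by decide +kernel)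
theorem pl4 : HoldsN XP (Trg.left (Trg.left (Trg.right (chamber 1 1)))) (Trg.left (Trg.right (chamberN 1 2))) :=
  leaf okP (PG10 _ rfl) (PG9 _ rfl) (PG11 _ rfl) (by decide +kernel)
theorem pl5 : HoldsN XP (Trg.left (Trg.right (Trg.left (Trg.right (chamber 1 1))))) (Trg.left (Trg.left (Trg.right (chamberN 1 2)))) :=
  leaf okP (PG15 _ rfl) (PG16 _ rfl) (PG14 _ rfl) (by decide +kernel)
theorem pl6 : HoldsN XP (Trg.left (Trg.right (Trg.left (Trg.right (chamber 1 1))))) (Trg.left (Trg.right (Trg.left (Trg.right (chamberN 1 2))))) :=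
  leaf okP topP (PG18 _ rfl) (PG18 _ rfl) (by decide +kernel)
theorem pl7 : HoldsN XP (Trg.left (Trg.right (Trg.left (Trg.right (chamber 1 1))))) (Trg.right (Trg.right (Trg.left (Trg.right (chamberN 1 2))))) :=
  leaf okP (PG15 _ rfl) (PG19 _ rfl) (PG14 _ rfl) (by decide +kernel)
theorem pl8 : HoldsN XP (Trg.right (Trg.right (Trg.left (Trg.right (chamber 1 1))))) (Trg.left (Trg.right (chamberN 1 2))) :=
  leaf okP (PG10 _ rfl) (PG9 _ rfl) (PG20 _ rfl) (by decide +kernel)
theorem pl9 : HoldsN XP (Trg.left (Trg.right (chamber 1 1))) (Trg.right (Trg.right (chamberN 1 2))) :=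
  leaf okP (PG0 _ rfl) (PG21 _ rfl) (PG5 _ rfl) (by decide +kernel)
theorem pl10 : HoldsN XP (Trg.right (Trg.right (chamber 1 1))) (chamberN 1 2) :=
  leaf okP (PG0 _ rfl) (PG22 _ rfl) (PG7 _ rfl) (by decide +kernel)
theorem pl11 : HoldsN XP (Trg.left (chamber 1 1)) (Trg.left (chamberNR 1 2)) :=
  leaf okP (PG25 _ rfl) (PG26 _ rfl) (PG27 _ rfl) (by decide +kernel)
theorem pl12 : HoldsN XP (Trg.left (chamber 1 1)) (Trg.left (Trg.right (chamberNR 1 2))) :=
  leaf okP (PG0 _ rfl) (PG5 _ rfl) (PG24 _ rfl) (by decide +kernel)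
theorem pl13 : HoldsN XP (Trg.left (chamber 1 1)) (Trg.right (Trg.right (chamberNR 1 2))) :=
  leaf okP (PG28 _ rfl) (PG26 _ rfl) (PG29 _ rfl) (by decide +kernel)
theorem pl14 : HoldsN XP (Trg.left (Trg.right (chamber 1 1))) (Trg.left (chamberNR 1 2)) :=
  leaf okP (PG0 _ rfl) (PG5 _ rfl) (PG24 _ rfl) (by decide +kernel)
theorem pl15 : HoldsN XP (Trg.left (Trg.left (Trg.right (chamber 1 1)))) (Trg.left (Trg.right (chamberNR 1 2))) :=
  leaf okP (PG10 _ rfl) (PG12 _ rfl) (PG31 _ rfl) (by decide +kernel)
theorem pl16 : HoldsN XP (Trg.left (Trg.right (Trg.left (Trg.right (chamber 1 1))))) (Trg.left (Trg.left (Trg.right (chamberNR 1 2)))) :=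
  leaf okP (PG15 _ rfl) (PG17 _ rfl) (PG33 _ rfl) (by decide +kernel)
theorem pl17 : HoldsN XP (Trg.left (Trg.right (Trg.left (Trg.right (chamber 1 1))))) (Trg.left (Trg.right (Trg.left (Trg.right (chamberNR 1 2))))) :=
  leaf okP topP (PG34 _ rfl) (PG35 _ rfl) (by decide +kernel)
theorem pl18 : HoldsN XP (Trg.left (Trg.right (Trg.left (Trg.right (chamber 1 1))))) (Trg.right (Trg.right (Trg.left (Trg.right (chamberNR 1 2))))) :=
  leaf okP (PG15 _ rfl) (PG17 _ rfl) (PG36 _ rfl) (by decide +kernel)
theorem pl19 : HoldsN XP (Trg.right (Trg.right (Trg.left (Trg.right (chamber 1 1))))) (Trg.left (Trg.right (chamberNR 1 2))) :=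
  leaf okP (PG10 _ rfl) (PG12 _ rfl) (PG37 _ rfl) (by decide +kernel)
theorem pl20 : HoldsN XP (Trg.left (Trg.right (chamber 1 1))) (Trg.right (Trg.right (chamberNR 1 2))) :=
  leaf okP (PG0 _ rfl) (PG5 _ rfl) (PG38 _ rfl) (by decide +kernel)
theorem pl21 : HoldsN XP (Trg.right (Trg.right (chamber 1 1))) (chamberNR 1 2) :=
  leaf okP (PG0 _ rfl) (PG5 _ rfl) (PG39 _ rfl) (by decide +kernel)
theorem rootP0 : HoldsN XP (chamber 1 1) (chamberN 1 2) :=
  (HoldsN.splitA (HoldsN.splitB pl0 (HoldsN.splitB pl1 pl2)) (HoldsN.splitA (HoldsN.splitB pl3 (HoldsN.splitB (HoldsN.splitA pl4 (HoldsN.splitA (HoldsN.splitB pl5 (HoldsN.splitB pl6 pl7)) pl8)) pl9)) pl10))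

theorem rootP1 : HoldsN XP (chamber 1 1) (chamberNR 1 2) :=
  (HoldsN.splitA (HoldsN.splitB pl11 (HoldsN.splitB pl12 pl13)) (HoldsN.splitA (HoldsN.splitB pl14 (HoldsN.splitB (HoldsN.splitA pl15 (HoldsN.splitA (HoldsN.splitB pl16 (HoldsN.splitB pl17 pl18)) pl19)) pl20)) pl21))

end

end Vale.Agent.Lib.P154N.D4
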