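import Vale.Agent.Lib.P154N.D4.Data
import Vale.Agent.Lib.P154N.Red

/-!
# Leaves of the tree of triangles
-/

namespace Vale.Agent.Lib.P154N.D4

open Vale.Agent.Lib.P154K Vale.Agent.Lib.P154Neg

theorem l1120 : HoldsN X4 (Trg.left (Trg.left (Trg.right (Trg.left (Trg.right (Trg.left (chamber 1 1))))))) (Trg.right (Trg.left (Trg.right (Trg.right (Trg.left (Trg.right (chamberNR 1 2))))))) :=
  HoldsN.of_red (k := 16) (m := 16) (leaf ok4 (G170 _ rfl) (G879 _ rfl) (G247 _ rfl) (by decide +kernel))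
theorem l1121 : HoldsN X4 (Trg.left (Trg.right (Trg.left (Trg.right (Trg.left (Trg.right (Trg.left (chamber 1 1)))))))) (Trg.left (Trg.left (Trg.right (Trg.left (Trg.right (Trg.right (Trg.left (Trg.right (chamberNR 1 2))))))))) :=
  HoldsN.of_red (k := 16) (m := 16) (leaf ok4 (G207 _ rfl) (G912 _ rfl) (G255 _ rfl) (by decide +kernel))
theorem l1122 : HoldsN X4 (Trg.left (Trg.right (Trg.left (Trg.right (Trg.left (Trg.right (Trg.left (chamber 1 1)))))))) (Trg.right (Trg.left (Trg.right (Trg.left (Trg.right (Trg.right (Trg.left (Trg.right (chamberNR 1 2))))))))) :=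
  HoldsN.of_red (k := 16) (m := 16) (leaf ok4 (G234 _ rfl) (G894 _ rfl) (G256 _ rfl) (by decide +kernel))
theorem l1123 : HoldsN X4 (Trg.right (Trg.right (Trg.left (Trg.right (Trg.left (Trg.right (Trg.left (chamber 1 1)))))))) (Trg.left (Trg.right (Trg.left (Trg.right (Trg.right (Trg.left (Trg.right (chamberNR 1 2)))))))) :=
  HoldsN.of_red (k := 16) (m := 16) (leaf ok4 (G169 _ rfl) (G896 _ rfl) (G286 _ rfl) (by decide +kernel))
theorem l1124 : HoldsN X4 (Trg.right (Trg.left (Trg.right (Trg.left (Trg.right (Trg.left (chamber 1 1))))))) (Trg.right (Trg.right (Trg.left (Trg.right (Trg.right (Trg.left (Trg.right (chamberNR 1 2)))))))) :=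
  HoldsN.of_red (k := 16) (m := 16) (leaf ok4 (G169 _ rfl) (G920 _ rfl) (G209 _ rfl) (by decide +kernel))
theorem l1125 : HoldsN X4 (Trg.left (Trg.right (Trg.right (Trg.left (Trg.right (Trg.left (chamber 1 1))))))) (Trg.left (Trg.left (Trg.right (Trg.right (Trg.left (Trg.right (chamberNR 1 2))))))) :=
  HoldsN.of_red (k := 16) (m := 16) (leaf ok4 (G93 _ rfl) (G932 _ rfl) (G302 _ rfl) (by decide +kernel))
theorem l1126 : HoldsN X4 (Trg.left (Trg.right (Trg.right (Trg.left (Trg.right (Trg.left (chamber 1 1))))))) (Trg.right (Trg.left (Trg.right (Trg.right (Trg.left (Trg.right (chamberNR 1 2))))))) :=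
  HoldsN.of_red (k := 16) (m := 16) (leaf ok4 (G124 _ rfl) (G899 _ rfl) (G303 _ rfl) (by decide +kernel))
theorem l1127 : HoldsN X4 (Trg.right (Trg.right (Trg.right (Trg.left (Trg.right (Trg.left (chamber 1 1))))))) (Trg.left (Trg.left (Trg.right (Trg.right (Trg.left (Trg.right (chamberNR 1 2))))))) :=
  HoldsN.of_red (k := 16) (m := 16) (leaf ok4 (G132 _ rfl) (G906 _ rfl) (G286 _ rfl) (by decide +kernel))
theorem l1128 : HoldsN X4 (Trg.right (Trg.right (Trg.right (Trg.left (Trg.right (Trg.left (chamber 1 1))))))) (Trg.right (Trg.left (Trg.right (Trg.right (Trg.left (Trg.right (chamberNR 1 2))))))) :=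
  HoldsN.of_red (k := 16) (m := 16) (leaf ok4 (G170 _ rfl) (G879 _ rfl) (G288 _ rfl) (by decide +kernel))
theorem l1129 : HoldsN X4 (Trg.right (Trg.left (Trg.right (Trg.left (chamber 1 1))))) (Trg.right (Trg.right (Trg.right (Trg.left (Trg.right (chamberNR 1 2)))))) :=
  HoldsN.of_red (k := 16) (m := 16) (leaf ok4 (G98 _ rfl) (G917 _ rfl) (G147 _ rfl) (by decide +kernel))

end Vale.Agent.Lib.P154N.D4
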