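import Vale.Agent.Lib.P154N.D4.Data
import Vale.Agent.Lib.P154N.Red

/-!
# Leaves of the tree of triangles
-/

namespace Vale.Agent.Lib.P154N.D4

open Vale.Agent.Lib.P154K Vale.Agent.Lib.P154Neg

theorem l1210 : HoldsN X4 (Trg.left (Trg.right (Trg.left (Trg.right (Trg.left (Trg.right (chamber 1 1))))))) (Trg.right (Trg.right (Trg.right (Trg.left (Trg.left (Trg.right (chamberNR 1 2))))))) :=
  HoldsN.of_red (k := 16) (m := 16) (leaf ok4 (G15 _ rfl) (G962 _ rfl) (G837 _ rfl) (by decide +kernel))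
theorem l1211 : HoldsN X4 (Trg.right (Trg.right (Trg.left (Trg.right (Trg.left (Trg.right (chamber 1 1))))))) (Trg.right (Trg.left (Trg.left (Trg.right (chamberNR 1 2))))) :=
  HoldsN.of_red (k := 16) (m := 16) (leaf ok4 (G14 _ rfl) (G942 _ rfl) (G761 _ rfl) (by decide +kernel))
theorem l1212 : HoldsN X4 (Trg.left (Trg.left (Trg.right (Trg.left (Trg.right (chamber 1 1)))))) (Trg.left (Trg.left (Trg.right (Trg.left (Trg.right (chamberNR 1 2)))))) :=
  HoldsN.of_red (k := 16) (m := 16) (leaf ok4 (G6 _ rfl) (G943 _ rfl) (G868 _ rfl) (by decide +kernel))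
theorem l1213 : HoldsN X4 (Trg.left (Trg.left (Trg.left (Trg.left (Trg.left (Trg.right (Trg.left (Trg.right (chamber 1 1))))))))) (Trg.left (Trg.right (Trg.left (Trg.right (Trg.left (Trg.right (chamberNR 1 2))))))) :=
  HoldsN.of_red (k := 16) (m := 16) (leaf ok4 (G3 _ rfl) (G969 _ rfl) (G934 _ rfl) (by decide +kernel))
theorem l1214 : HoldsN X4 (Trg.right (Trg.left (Trg.left (Trg.left (Trg.left (Trg.right (Trg.left (Trg.right (chamber 1 1))))))))) (Trg.left (Trg.right (Trg.left (Trg.right (Trg.left (Trg.right (chamberNR 1 2))))))) :=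
  HoldsN.of_red (k := 16) (m := 16) (leaf ok4 top4 (G970 _ rfl) (G948 _ rfl) (by decide +kernel))
theorem l1215 : HoldsN X4 (Trg.right (Trg.left (Trg.left (Trg.left (Trg.right (Trg.left (Trg.right (chamber 1 1)))))))) (Trg.left (Trg.right (Trg.left (Trg.right (Trg.left (Trg.right (chamberNR 1 2))))))) :=
  HoldsN.of_red (k := 16) (m := 16) (leaf ok4 (G4 _ rfl) (G960 _ rfl) (G934 _ rfl) (by decide +kernel))
theorem l1216 : HoldsN X4 (Trg.left (Trg.right (Trg.left (Trg.left (Trg.right (Trg.left (Trg.right (chamber 1 1)))))))) (Trg.left (Trg.right (Trg.left (Trg.right (Trg.left (Trg.right (chamberNR 1 2))))))) :=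
  HoldsN.of_red (k := 16) (m := 16) (leaf ok4 (G2 _ rfl) (G970 _ rfl) (G913 _ rfl) (by decide +kernel))
theorem l1217 : HoldsN X4 (Trg.left (Trg.right (Trg.right (Trg.left (Trg.left (Trg.right (Trg.left (Trg.right (chamber 1 1))))))))) (Trg.left (Trg.right (Trg.left (Trg.right (Trg.left (Trg.right (chamberNR 1 2))))))) :=
  HoldsN.of_red (k := 16) (m := 16) (leaf ok4 top4 (G973 _ rfl) (G939 _ rfl) (by decide +kernel))
theorem l1218 : HoldsN X4 (Trg.right (Trg.right (Trg.right (Trg.left (Trg.left (Trg.right (Trg.left (Trg.right (chamber 1 1))))))))) (Trg.left (Trg.right (Trg.left (Trg.right (Trg.left (Trg.right (chamberNR 1 2))))))) :=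
  HoldsN.of_red (k := 16) (m := 16) (leaf ok4 (G2 _ rfl) (G970 _ rfl) (G932 _ rfl) (by decide +kernel))
theorem l1219 : HoldsN X4 (Trg.left (Trg.left (Trg.right (Trg.left (Trg.right (chamber 1 1)))))) (Trg.right (Trg.right (Trg.left (Trg.right (Trg.left (Trg.right (chamberNR 1 2))))))) :=
  HoldsN.of_red (k := 16) (m := 16) (leaf ok4 (G6 _ rfl) (G943 _ rfl) (G905 _ rfl) (by decide +kernel))

end Vale.Agent.Lib.P154N.D4
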