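import Vale.Agent.Lib.P154N.D4.Data
import Vale.Agent.Lib.P154N.Red

/-!
# Leaves of the tree of triangles
-/

namespace Vale.Agent.Lib.P154N.D4

open Vale.Agent.Lib.P154K Vale.Agent.Lib.P154Neg

theorem l1220 : HoldsN X4 (Trg.left (Trg.left (Trg.right (Trg.left (Trg.right (Trg.left (Trg.right (chamber 1 1)))))))) (Trg.left (Trg.left (Trg.left (Trg.left (Trg.right (Trg.left (Trg.right (chamberNR 1 2)))))))) :=
  HoldsN.of_red (k := 16) (m := 16) (leaf ok4 (G1 _ rfl) (G970 _ rfl) (G931 _ rfl) (by decide +kernel))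
theorem l1221 : HoldsN X4 (Trg.left (Trg.right (Trg.left (Trg.right (Trg.left (Trg.right (Trg.left (Trg.right (chamber 1 1))))))))) (Trg.left (Trg.left (Trg.left (Trg.left (Trg.right (Trg.left (Trg.right (chamberNR 1 2)))))))) :=
  HoldsN.of_red (k := 16) (m := 16) (leaf ok4 top4 (G973 _ rfl) (G950 _ rfl) (by decide +kernel))
theorem l1222 : HoldsN X4 (Trg.right (Trg.right (Trg.left (Trg.right (Trg.left (Trg.right (Trg.left (Trg.right (chamber 1 1))))))))) (Trg.left (Trg.left (Trg.left (Trg.left (Trg.right (Trg.left (Trg.right (chamberNR 1 2)))))))) :=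
  HoldsN.of_red (k := 16) (m := 16) (leaf ok4 (G1 _ rfl) (G970 _ rfl) (G946 _ rfl) (by decide +kernel))
theorem l1223 : HoldsN X4 (Trg.left (Trg.right (Trg.left (Trg.right (Trg.left (Trg.right (chamber 1 1))))))) (Trg.right (Trg.left (Trg.left (Trg.left (Trg.right (Trg.left (Trg.right (chamberNR 1 2)))))))) :=
  HoldsN.of_red (k := 16) (m := 16) (leaf ok4 (G4 _ rfl) (G960 _ rfl) (G934 _ rfl) (by decide +kernel))
theorem l1224 : HoldsN X4 (Trg.left (Trg.left (Trg.right (Trg.left (Trg.right (Trg.left (Trg.right (chamber 1 1)))))))) (Trg.right (Trg.left (Trg.left (Trg.right (Trg.left (Trg.right (chamberNR 1 2))))))) :=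
  HoldsN.of_red (k := 16) (m := 16) (leaf ok4 (G1 _ rfl) (G970 _ rfl) (G914 _ rfl) (by decide +kernel))
theorem l1225 : HoldsN X4 (Trg.left (Trg.right (Trg.left (Trg.right (Trg.left (Trg.right (Trg.left (Trg.right (chamber 1 1))))))))) (Trg.right (Trg.left (Trg.left (Trg.right (Trg.left (Trg.right (chamberNR 1 2))))))) :=
  HoldsN.of_red (k := 16) (m := 16) (leaf ok4 top4 (G973 _ rfl) (G935 _ rfl) (by decide +kernel))
theorem l1226 : HoldsN X4 (Trg.right (Trg.right (Trg.left (Trg.right (Trg.left (Trg.right (Trg.left (Trg.right (chamber 1 1))))))))) (Trg.right (Trg.left (Trg.left (Trg.right (Trg.left (Trg.right (chamberNR 1 2))))))) :=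
  HoldsN.of_red (k := 16) (m := 16) (leaf ok4 (G1 _ rfl) (G970 _ rfl) (G933 _ rfl) (by decide +kernel))
theorem l1227 : HoldsN X4 (Trg.left (Trg.right (Trg.left (Trg.right (Trg.left (Trg.right (chamber 1 1))))))) (Trg.left (Trg.right (Trg.left (Trg.right (Trg.left (Trg.right (chamberNR 1 2))))))) :=
  HoldsN.of_red (k := 16) (m := 16) (leaf ok4 top4 (G970 _ rfl) (G958 _ rfl) (by decide +kernel))
theorem l1228 : HoldsN X4 (Trg.left (Trg.right (Trg.left (Trg.right (Trg.left (Trg.right (chamber 1 1))))))) (Trg.left (Trg.right (Trg.right (Trg.left (Trg.right (Trg.left (Trg.right (chamberNR 1 2)))))))) :=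
  HoldsN.of_red (k := 16) (m := 16) (leaf ok4 (G0 _ rfl) (G960 _ rfl) (G951 _ rfl) (by decide +kernel))
theorem l1229 : HoldsN X4 (Trg.left (Trg.right (Trg.left (Trg.right (Trg.left (Trg.right (chamber 1 1))))))) (Trg.right (Trg.right (Trg.right (Trg.left (Trg.right (Trg.left (Trg.right (chamberNR 1 2)))))))) :=
  HoldsN.of_red (k := 16) (m := 16) (leaf ok4 top4 (G970 _ rfl) (G954 _ rfl) (by decide +kernel))

end Vale.Agent.Lib.P154N.D4
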