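import Vale.Agent.Lib.P154N.D4.Data
import Vale.Agent.Lib.P154N.Red

/-!
# Leaves of the tree of triangles
-/

namespace Vale.Agent.Lib.P154N.D4

open Vale.Agent.Lib.P154K Vale.Agent.Lib.P154Neg

theorem l180 : HoldsN X2 (Trg.left (Trg.left (Trg.left (Trg.right (Trg.left (chamberN 1 2)))))) (Trg.left (Trg.right (Trg.left (chamberNR 1 2)))) :=
  HoldsN.of_red (k := 16) (m := 16) (leaf ok2 (G481 _ rfl) (G280 _ rfl) (G687 _ rfl) (by decide +kernel))
theorem l181 : HoldsN X2 (Trg.right (Trg.left (Trg.left (Trg.right (Trg.left (chamberN 1 2)))))) (Trg.left (Trg.right (Trg.left (chamberNR 1 2)))) :=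
  HoldsN.of_red (k := 16) (m := 16) (leaf ok2 (G477 _ rfl) (G365 _ rfl) (G654 _ rfl) (by decide +kernel))
theorem l182 : HoldsN X2 (Trg.left (Trg.right (Trg.left (Trg.right (Trg.left (chamberN 1 2)))))) (Trg.left (Trg.left (Trg.left (Trg.right (Trg.left (chamberNR 1 2)))))) :=
  HoldsN.of_red (k := 16) (m := 16) (leaf ok2 (G476 _ rfl) (G303 _ rfl) (G730 _ rfl) (by decide +kernel))
theorem l183 : HoldsN X2 (Trg.right (Trg.right (Trg.left (Trg.right (Trg.left (chamberN 1 2)))))) (Trg.left (Trg.left (Trg.left (Trg.right (Trg.left (chamberNR 1 2)))))) :=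
  HoldsN.of_red (k := 16) (m := 16) (leaf ok2 (G498 _ rfl) (G279 _ rfl) (G729 _ rfl) (by decide +kernel))
theorem l184 : HoldsN X2 (Trg.left (Trg.left (Trg.right (Trg.left (Trg.right (Trg.left (chamberN 1 2))))))) (Trg.right (Trg.left (Trg.left (Trg.right (Trg.left (chamberNR 1 2)))))) :=
  HoldsN.of_red (k := 16) (m := 16) (leaf ok2 (G473 _ rfl) (G390 _ rfl) (G683 _ rfl) (by decide +kernel))
theorem l185 : HoldsN X2 (Trg.left (Trg.right (Trg.left (Trg.right (Trg.left (Trg.right (Trg.left (chamberN 1 2)))))))) (Trg.left (Trg.left (Trg.left (Trg.right (Trg.left (Trg.left (Trg.right (Trg.left (chamberNR 1 2))))))))) :=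
  HoldsN.of_red (k := 16) (m := 16) (leaf ok2 (G488 _ rfl) (G430 _ rfl) (G711 _ rfl) (by decide +kernel))
theorem l186 : HoldsN X2 (Trg.left (Trg.right (Trg.left (Trg.right (Trg.left (Trg.right (Trg.left (chamberN 1 2)))))))) (Trg.right (Trg.left (Trg.left (Trg.right (Trg.left (Trg.left (Trg.right (Trg.left (chamberNR 1 2))))))))) :=
  HoldsN.of_red (k := 16) (m := 16) (leaf ok2 (G501 _ rfl) (G399 _ rfl) (G712 _ rfl) (by decide +kernel))
theorem l187 : HoldsN X2 (Trg.right (Trg.right (Trg.left (Trg.right (Trg.left (Trg.right (Trg.left (chamberN 1 2)))))))) (Trg.left (Trg.left (Trg.right (Trg.left (Trg.left (Trg.right (Trg.left (chamberNR 1 2)))))))) :=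
  HoldsN.of_red (k := 16) (m := 16) (leaf ok2 (G490 _ rfl) (G389 _ rfl) (G712 _ rfl) (by decide +kernel))
theorem l188 : HoldsN X2 (Trg.right (Trg.left (Trg.right (Trg.left (Trg.right (Trg.left (chamberN 1 2))))))) (Trg.right (Trg.left (Trg.right (Trg.left (Trg.left (Trg.right (Trg.left (chamberNR 1 2)))))))) :=
  HoldsN.of_red (k := 16) (m := 16) (leaf ok2 (G489 _ rfl) (G420 _ rfl) (G699 _ rfl) (by decide +kernel))
theorem l189 : HoldsN X2 (Trg.left (Trg.left (Trg.right (Trg.left (Trg.right (Trg.left (Trg.right (Trg.left (chamberN 1 2))))))))) (Trg.left (Trg.right (Trg.right (Trg.left (Trg.left (Trg.right (Trg.left (chamberNR 1 2)))))))) :=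
  HoldsN.of_red (k := 16) (m := 16) (leaf ok2 (G470 _ rfl) (G419 _ rfl) (G712 _ rfl) (by decide +kernel))

end Vale.Agent.Lib.P154N.D4
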