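import Vale.Agent.Lib.P154N.D4.Data
import Vale.Agent.Lib.P154N.Red

/-!
# Leaves of the tree of triangles
-/

namespace Vale.Agent.Lib.P154N.D4

open Vale.Agent.Lib.P154K Vale.Agent.Lib.P154Neg

theorem l190 : HoldsN X2 (Trg.right (Trg.left (Trg.right (Trg.left (Trg.right (Trg.left (Trg.right (Trg.left (chamberN 1 2))))))))) (Trg.left (Trg.left (Trg.left (Trg.right (Trg.right (Trg.left (Trg.left (Trg.right (Trg.left (chamberNR 1 2)))))))))) :=
  HoldsN.of_red (k := 16) (m := 16) (leaf ok2 (G470 _ rfl) (G418 _ rfl) (G741 _ rfl) (by decide +kernel))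
theorem l191 : HoldsN X2 (Trg.right (Trg.left (Trg.right (Trg.left (Trg.right (Trg.left (Trg.right (Trg.left (chamberN 1 2))))))))) (Trg.right (Trg.left (Trg.left (Trg.right (Trg.right (Trg.left (Trg.left (Trg.right (Trg.left (chamberNR 1 2)))))))))) :=
  HoldsN.of_red (k := 16) (m := 16) (leaf ok2 (G470 _ rfl) (G430 _ rfl) (G726 _ rfl) (by decide +kernel))
theorem l192 : HoldsN X2 (Trg.right (Trg.left (Trg.right (Trg.left (Trg.right (Trg.left (Trg.right (Trg.left (chamberN 1 2))))))))) (Trg.right (Trg.left (Trg.right (Trg.right (Trg.left (Trg.left (Trg.right (Trg.left (chamberNR 1 2))))))))) :=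
  HoldsN.of_red (k := 16) (m := 16) (leaf ok2 (G470 _ rfl) (G418 _ rfl) (G741 _ rfl) (by decide +kernel))
theorem l193 : HoldsN X2 (Trg.left (Trg.right (Trg.left (Trg.right (Trg.left (Trg.right (Trg.left (chamberN 1 2)))))))) (Trg.left (Trg.right (Trg.right (Trg.right (Trg.left (Trg.left (Trg.right (Trg.left (chamberNR 1 2))))))))) :=
  HoldsN.of_red (k := 16) (m := 16) (leaf ok2 (G489 _ rfl) (G398 _ rfl) (G727 _ rfl) (by decide +kernel))
theorem l194 : HoldsN X2 (Trg.left (Trg.left (Trg.right (Trg.left (Trg.right (Trg.left (Trg.right (Trg.left (chamberN 1 2))))))))) (Trg.right (Trg.right (Trg.right (Trg.right (Trg.left (Trg.left (Trg.right (Trg.left (chamberNR 1 2))))))))) :=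
  HoldsN.of_red (k := 16) (m := 16) (leaf ok2 (G488 _ rfl) (G419 _ rfl) (G712 _ rfl) (by decide +kernel))
theorem l195 : HoldsN X2 (Trg.right (Trg.left (Trg.right (Trg.left (Trg.right (Trg.left (Trg.right (Trg.left (chamberN 1 2))))))))) (Trg.right (Trg.right (Trg.right (Trg.right (Trg.left (Trg.left (Trg.right (Trg.left (chamberNR 1 2))))))))) :=
  HoldsN.of_red (k := 16) (m := 16) (leaf ok2 (G488 _ rfl) (G419 _ rfl) (G727 _ rfl) (by decide +kernel))
theorem l196 : HoldsN X2 (Trg.right (Trg.right (Trg.left (Trg.right (Trg.left (Trg.right (Trg.left (chamberN 1 2)))))))) (Trg.right (Trg.right (Trg.left (Trg.left (Trg.right (Trg.left (chamberNR 1 2))))))) :=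
  HoldsN.of_red (k := 16) (m := 16) (leaf ok2 (G473 _ rfl) (G389 _ rfl) (G712 _ rfl) (by decide +kernel))
theorem l197 : HoldsN X2 (Trg.right (Trg.right (Trg.left (Trg.right (Trg.left (chamberN 1 2)))))) (Trg.right (Trg.left (Trg.left (Trg.right (Trg.left (chamberNR 1 2)))))) :=
  HoldsN.of_red (k := 16) (m := 16) (leaf ok2 (G496 _ rfl) (G364 _ rfl) (G683 _ rfl) (by decide +kernel))
theorem l198 : HoldsN X2 (Trg.left (Trg.left (Trg.right (Trg.left (Trg.right (Trg.left (chamberN 1 2))))))) (Trg.left (Trg.right (Trg.left (Trg.right (Trg.left (chamberNR 1 2)))))) :=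
  HoldsN.of_red (k := 16) (m := 16) (leaf ok2 (G461 _ rfl) (G347 _ rfl) (G730 _ rfl) (by decide +kernel))
theorem l199 : HoldsN X2 (Trg.right (Trg.left (Trg.right (Trg.left (Trg.right (Trg.left (chamberN 1 2))))))) (Trg.left (Trg.right (Trg.left (Trg.right (Trg.left (chamberNR 1 2)))))) :=
  HoldsN.of_red (k := 16) (m := 16) (leaf ok2 (G433 _ rfl) (G346 _ rfl) (G743 _ rfl) (by decide +kernel))

end Vale.Agent.Lib.P154N.D4
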