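import Vale.Agent.Lib.P154N.D4.Data
import Vale.Agent.Lib.P154N.Red

/-!
# Leaves of the tree of triangles
-/

namespace Vale.Agent.Lib.P154N.D4

open Vale.Agent.Lib.P154K Vale.Agent.Lib.P154Neg

theorem l280 : HoldsN X2 (Trg.left (Trg.right (Trg.left (Trg.right (Trg.left (Trg.right (chamberN 1 2))))))) (Trg.left (Trg.right (Trg.left (Trg.right (chamberNR 1 2))))) :=
  HoldsN.of_red (k := 16) (m := 16) (leaf ok2 (G962 _ rfl) (G135 _ rfl) (G140 _ rfl) (by decide +kernel))
theorem l281 : HoldsN X2 (Trg.right (Trg.right (Trg.left (Trg.right (Trg.left (Trg.right (chamberN 1 2))))))) (Trg.left (Trg.right (Trg.left (Trg.right (chamberNR 1 2))))) :=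
  HoldsN.of_red (k := 16) (m := 16) (leaf ok2 (G941 _ rfl) (G137 _ rfl) (G168 _ rfl) (by decide +kernel))
theorem l282 : HoldsN X2 (Trg.left (Trg.left (Trg.right (Trg.left (Trg.right (chamberN 1 2)))))) (Trg.left (Trg.right (Trg.right (Trg.left (Trg.right (chamberNR 1 2)))))) :=
  HoldsN.of_red (k := 16) (m := 16) (leaf ok2 (G880 _ rfl) (G209 _ rfl) (G258 _ rfl) (by decide +kernel))
theorem l283 : HoldsN X2 (Trg.left (Trg.left (Trg.right (Trg.left (Trg.right (Trg.left (Trg.right (chamberN 1 2)))))))) (Trg.left (Trg.left (Trg.right (Trg.right (Trg.left (Trg.right (chamberNR 1 2))))))) :=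
  HoldsN.of_red (k := 16) (m := 16) (leaf ok2 (G930 _ rfl) (G204 _ rfl) (G234 _ rfl) (by decide +kernel))
theorem l284 : HoldsN X2 (Trg.left (Trg.right (Trg.left (Trg.right (Trg.left (Trg.right (Trg.left (Trg.right (chamberN 1 2))))))))) (Trg.left (Trg.left (Trg.left (Trg.right (Trg.right (Trg.left (Trg.right (chamberNR 1 2)))))))) :=
  HoldsN.of_red (k := 16) (m := 16) (leaf ok2 (G944 _ rfl) (G203 _ rfl) (G244 _ rfl) (by decide +kernel))
theorem l285 : HoldsN X2 (Trg.left (Trg.right (Trg.left (Trg.right (Trg.left (Trg.right (Trg.left (Trg.right (chamberN 1 2))))))))) (Trg.left (Trg.right (Trg.left (Trg.left (Trg.right (Trg.right (Trg.left (Trg.right (chamberNR 1 2))))))))) :=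
  HoldsN.of_red (k := 16) (m := 16) (leaf ok2 (G956 _ rfl) (G201 _ rfl) (G203 _ rfl) (by decide +kernel))
theorem l286 : HoldsN X2 (Trg.left (Trg.right (Trg.left (Trg.right (Trg.left (Trg.right (Trg.left (Trg.right (chamberN 1 2))))))))) (Trg.right (Trg.right (Trg.left (Trg.left (Trg.right (Trg.right (Trg.left (Trg.right (chamberNR 1 2))))))))) :=
  HoldsN.of_red (k := 16) (m := 16) (leaf ok2 (G944 _ rfl) (G203 _ rfl) (G232 _ rfl) (by decide +kernel))
theorem l287 : HoldsN X2 (Trg.right (Trg.right (Trg.left (Trg.right (Trg.left (Trg.right (Trg.left (Trg.right (chamberN 1 2))))))))) (Trg.left (Trg.left (Trg.right (Trg.right (Trg.left (Trg.right (chamberNR 1 2))))))) :=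
  HoldsN.of_red (k := 16) (m := 16) (leaf ok2 (G930 _ rfl) (G204 _ rfl) (G223 _ rfl) (by decide +kernel))
theorem l288 : HoldsN X2 (Trg.left (Trg.left (Trg.right (Trg.left (Trg.right (Trg.left (Trg.right (chamberN 1 2)))))))) (Trg.left (Trg.right (Trg.left (Trg.right (Trg.right (Trg.left (Trg.right (chamberNR 1 2)))))))) :=
  HoldsN.of_red (k := 16) (m := 16) (leaf ok2 (G895 _ rfl) (G255 _ rfl) (G274 _ rfl) (by decide +kernel))
theorem l289 : HoldsN X2 (Trg.left (Trg.left (Trg.right (Trg.left (Trg.right (Trg.left (Trg.right (Trg.left (Trg.right (chamberN 1 2)))))))))) (Trg.left (Trg.left (Trg.right (Trg.left (Trg.right (Trg.right (Trg.left (Trg.right (chamberNR 1 2))))))))) :=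
  HoldsN.of_red (k := 16) (m := 16) (leaf ok2 (G921 _ rfl) (G253 _ rfl) (G254 _ rfl) (by decide +kernel))

end Vale.Agent.Lib.P154N.D4
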