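import Vale.Agent.Lib.P154N.D4.Data
import Vale.Agent.Lib.P154N.Red

/-!
# Leaves of the tree of triangles
-/

namespace Vale.Agent.Lib.P154N.D4

open Vale.Agent.Lib.P154K Vale.Agent.Lib.P154Neg

theorem l290 : HoldsN X2 (Trg.left (Trg.right (Trg.left (Trg.right (Trg.left (Trg.right (Trg.left (Trg.right (Trg.left (Trg.right (chamberN 1 2))))))))))) (Trg.left (Trg.left (Trg.left (Trg.right (Trg.left (Trg.right (Trg.right (Trg.left (Trg.right (chamberNR 1 2)))))))))) :=
  HoldsN.of_red (k := 16) (m := 16) (leaf ok2 (G926 _ rfl) (G252 _ rfl) (G272 _ rfl) (by decide +kernel))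
theorem l291 : HoldsN X2 (Trg.left (Trg.right (Trg.left (Trg.right (Trg.left (Trg.right (Trg.left (Trg.right (Trg.left (Trg.right (chamberN 1 2))))))))))) (Trg.right (Trg.left (Trg.left (Trg.right (Trg.left (Trg.right (Trg.right (Trg.left (Trg.right (chamberNR 1 2)))))))))) :=
  HoldsN.of_red (k := 16) (m := 16) (leaf ok2 (G927 _ rfl) (G252 _ rfl) (G252 _ rfl) (by decide +kernel))
theorem l292 : HoldsN X2 (Trg.right (Trg.right (Trg.left (Trg.right (Trg.left (Trg.right (Trg.left (Trg.right (Trg.left (Trg.right (chamberN 1 2))))))))))) (Trg.left (Trg.left (Trg.right (Trg.left (Trg.right (Trg.right (Trg.left (Trg.right (chamberNR 1 2))))))))) :=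
  HoldsN.of_red (k := 16) (m := 16) (leaf ok2 (G921 _ rfl) (G253 _ rfl) (G254 _ rfl) (by decide +kernel))
theorem l293 : HoldsN X2 (Trg.left (Trg.right (Trg.left (Trg.right (Trg.left (Trg.right (Trg.left (Trg.right (chamberN 1 2))))))))) (Trg.right (Trg.left (Trg.right (Trg.left (Trg.right (Trg.right (Trg.left (Trg.right (chamberNR 1 2))))))))) :=
  HoldsN.of_red (k := 16) (m := 16) (leaf ok2 (G904 _ rfl) (G254 _ rfl) (G283 _ rfl) (by decide +kernel))
theorem l294 : HoldsN X2 (Trg.right (Trg.right (Trg.left (Trg.right (Trg.left (Trg.right (Trg.left (Trg.right (chamberN 1 2))))))))) (Trg.left (Trg.right (Trg.left (Trg.right (Trg.right (Trg.left (Trg.right (chamberNR 1 2)))))))) :=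
  HoldsN.of_red (k := 16) (m := 16) (leaf ok2 (G895 _ rfl) (G255 _ rfl) (G273 _ rfl) (by decide +kernel))
theorem l295 : HoldsN X2 (Trg.left (Trg.right (Trg.left (Trg.right (Trg.left (Trg.right (chamberN 1 2))))))) (Trg.right (Trg.right (Trg.left (Trg.right (Trg.right (Trg.left (Trg.right (chamberNR 1 2)))))))) :=
  HoldsN.of_red (k := 16) (m := 16) (leaf ok2 (G919 _ rfl) (G204 _ rfl) (G256 _ rfl) (by decide +kernel))
theorem l296 : HoldsN X2 (Trg.right (Trg.right (Trg.left (Trg.right (Trg.left (Trg.right (chamberN 1 2))))))) (Trg.left (Trg.right (Trg.right (Trg.left (Trg.right (chamberNR 1 2)))))) :=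
  HoldsN.of_red (k := 16) (m := 16) (leaf ok2 (G880 _ rfl) (G209 _ rfl) (G246 _ rfl) (by decide +kernel))
theorem l297 : HoldsN X2 (Trg.left (Trg.right (Trg.left (Trg.right (chamberN 1 2))))) (Trg.right (Trg.right (Trg.right (Trg.left (Trg.right (chamberNR 1 2)))))) :=
  HoldsN.of_red (k := 16) (m := 16) (leaf ok2 (G915 _ rfl) (G137 _ rfl) (G210 _ rfl) (by decide +kernel))
theorem l298 : HoldsN X2 (Trg.right (Trg.right (Trg.left (Trg.right (chamberN 1 2))))) (Trg.left (Trg.right (chamberNR 1 2))) :=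
  HoldsN.of_red (k := 16) (m := 16) (leaf ok2 (G829 _ rfl) (G146 _ rfl) (G216 _ rfl) (by decide +kernel))
theorem l299 : HoldsN X2 (Trg.left (Trg.left (Trg.left (Trg.left (Trg.left (Trg.right (chamberN 1 2))))))) (Trg.left (Trg.left (Trg.left (Trg.right (Trg.right (chamberNR 1 2)))))) :=
  HoldsN.of_red (k := 16) (m := 16) (leaf ok2 (G731 _ rfl) (G345 _ rfl) (G473 _ rfl) (by decide +kernel))

end Vale.Agent.Lib.P154N.D4
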