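import Vale.Agent.Lib.P154N.D4.Data
import Vale.Agent.Lib.P154N.Red

/-!
# Leaves of the tree of triangles
-/

namespace Vale.Agent.Lib.P154N.D4

open Vale.Agent.Lib.P154K Vale.Agent.Lib.P154Neg

theorem l450 : HoldsN X3 (Trg.left (Trg.left (Trg.right (Trg.right (Trg.left (Trg.right (Trg.left (chamber 1 1)))))))) (Trg.left (Trg.left (Trg.right (Trg.left (Trg.left (Trg.left (Trg.right (chamberN 1 2)))))))) :=
  HoldsN.of_red (k := 16) (m := 16) (leaf ok3 (G115 _ rfl) (G902 _ rfl) (G401 _ rfl) (by decide +kernel))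
theorem l451 : HoldsN X3 (Trg.right (Trg.left (Trg.right (Trg.right (Trg.left (Trg.right (Trg.left (chamber 1 1)))))))) (Trg.left (Trg.left (Trg.right (Trg.left (Trg.left (Trg.left (Trg.right (chamberN 1 2)))))))) :=
  HoldsN.of_red (k := 16) (m := 16) (leaf ok3 (G109 _ rfl) (G901 _ rfl) (G434 _ rfl) (by decide +kernel))
theorem l452 : HoldsN X3 (Trg.left (Trg.left (Trg.right (Trg.right (Trg.left (Trg.right (Trg.left (chamber 1 1)))))))) (Trg.right (Trg.left (Trg.right (Trg.left (Trg.left (Trg.left (Trg.right (chamberN 1 2)))))))) :=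
  HoldsN.of_red (k := 16) (m := 16) (leaf ok3 (G153 _ rfl) (G893 _ rfl) (G401 _ rfl) (by decide +kernel))
theorem l453 : HoldsN X3 (Trg.left (Trg.right (Trg.left (Trg.right (Trg.right (Trg.left (Trg.right (Trg.left (chamber 1 1))))))))) (Trg.left (Trg.right (Trg.left (Trg.right (Trg.left (Trg.left (Trg.left (Trg.right (chamberN 1 2))))))))) :=
  HoldsN.of_red (k := 16) (m := 16) (leaf ok3 (G127 _ rfl) (G904 _ rfl) (G460 _ rfl) (by decide +kernel))
theorem l454 : HoldsN X3 (Trg.left (Trg.right (Trg.left (Trg.right (Trg.right (Trg.left (Trg.right (Trg.left (chamber 1 1))))))))) (Trg.right (Trg.right (Trg.left (Trg.right (Trg.left (Trg.left (Trg.left (Trg.right (chamberN 1 2))))))))) :=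
  HoldsN.of_red (k := 16) (m := 16) (leaf ok3 (G126 _ rfl) (G904 _ rfl) (G462 _ rfl) (by decide +kernel))
theorem l455 : HoldsN X3 (Trg.right (Trg.right (Trg.left (Trg.right (Trg.right (Trg.left (Trg.right (Trg.left (chamber 1 1))))))))) (Trg.right (Trg.left (Trg.right (Trg.left (Trg.left (Trg.left (Trg.right (chamberN 1 2)))))))) :=
  HoldsN.of_red (k := 16) (m := 16) (leaf ok3 (G153 _ rfl) (G893 _ rfl) (G431 _ rfl) (by decide +kernel))
theorem l456 : HoldsN X3 (Trg.left (Trg.left (Trg.right (Trg.right (Trg.left (Trg.right (Trg.left (chamber 1 1)))))))) (Trg.right (Trg.right (Trg.left (Trg.left (Trg.left (Trg.right (chamberN 1 2))))))) :=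
  HoldsN.of_red (k := 16) (m := 16) (leaf ok3 (G115 _ rfl) (G902 _ rfl) (G403 _ rfl) (by decide +kernel))
theorem l457 : HoldsN X3 (Trg.right (Trg.left (Trg.right (Trg.right (Trg.left (Trg.right (Trg.left (chamber 1 1)))))))) (Trg.right (Trg.right (Trg.left (Trg.left (Trg.left (Trg.right (chamberN 1 2))))))) :=
  HoldsN.of_red (k := 16) (m := 16) (leaf ok3 (G109 _ rfl) (G901 _ rfl) (G439 _ rfl) (by decide +kernel))
theorem l458 : HoldsN X3 (Trg.left (Trg.right (Trg.right (Trg.right (Trg.left (Trg.right (Trg.left (chamber 1 1)))))))) (Trg.right (Trg.left (Trg.left (Trg.left (Trg.right (chamberN 1 2)))))) :=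
  HoldsN.of_red (k := 16) (m := 16) (leaf ok3 (G163 _ rfl) (G873 _ rfl) (G348 _ rfl) (by decide +kernel))
theorem l459 : HoldsN X3 (Trg.right (Trg.right (Trg.right (Trg.right (Trg.left (Trg.right (Trg.left (chamber 1 1)))))))) (Trg.right (Trg.left (Trg.left (Trg.left (Trg.right (chamberN 1 2)))))) :=
  HoldsN.of_red (k := 16) (m := 16) (leaf ok3 (G138 _ rfl) (G898 _ rfl) (G372 _ rfl) (by decide +kernel))

end Vale.Agent.Lib.P154N.D4
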