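import Vale.Agent.Lib.P154N.D4.Data
import Vale.Agent.Lib.P154N.Red

/-!
# Leaves of the tree of triangles
-/

namespace Vale.Agent.Lib.P154N.D4

open Vale.Agent.Lib.P154K Vale.Agent.Lib.P154Neg

theorem l70 : HoldsN X2 (Trg.left (Trg.right (Trg.left (Trg.right (Trg.left (Trg.right (Trg.left (Trg.right (chamberN 1 2))))))))) (Trg.left (Trg.left (Trg.left (Trg.right (Trg.right (Trg.left (Trg.right (chamberN 1 2)))))))) :=
  HoldsN.of_red (k := 16) (m := 16) (leaf ok2 (G944 _ rfl) (G233 _ rfl) (G203 _ rfl) (by decide +kernel))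
theorem l71 : HoldsN X2 (Trg.left (Trg.right (Trg.left (Trg.right (Trg.left (Trg.right (Trg.left (Trg.right (chamberN 1 2))))))))) (Trg.left (Trg.right (Trg.left (Trg.left (Trg.right (Trg.right (Trg.left (Trg.right (chamberN 1 2))))))))) :=
  HoldsN.of_red (k := 16) (m := 16) (leaf ok2 (G956 _ rfl) (G202 _ rfl) (G202 _ rfl) (by decide +kernel))
theorem l72 : HoldsN X2 (Trg.left (Trg.right (Trg.left (Trg.right (Trg.left (Trg.right (Trg.left (Trg.right (chamberN 1 2))))))))) (Trg.right (Trg.right (Trg.left (Trg.left (Trg.right (Trg.right (Trg.left (Trg.right (chamberN 1 2))))))))) :=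
  HoldsN.of_red (k := 16) (m := 16) (leaf ok2 (G944 _ rfl) (G232 _ rfl) (G203 _ rfl) (by decide +kernel))
theorem l73 : HoldsN X2 (Trg.right (Trg.right (Trg.left (Trg.right (Trg.left (Trg.right (Trg.left (Trg.right (chamberN 1 2))))))))) (Trg.left (Trg.left (Trg.right (Trg.right (Trg.left (Trg.right (chamberN 1 2))))))) :=
  HoldsN.of_red (k := 16) (m := 16) (leaf ok2 (G930 _ rfl) (G206 _ rfl) (G222 _ rfl) (by decide +kernel))
theorem l74 : HoldsN X2 (Trg.left (Trg.left (Trg.right (Trg.left (Trg.right (Trg.left (Trg.right (chamberN 1 2)))))))) (Trg.left (Trg.right (Trg.left (Trg.right (Trg.right (Trg.left (Trg.right (chamberN 1 2)))))))) :=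
  HoldsN.of_red (k := 16) (m := 16) (leaf ok2 (G895 _ rfl) (G255 _ rfl) (G274 _ rfl) (by decide +kernel))
theorem l75 : HoldsN X2 (Trg.left (Trg.left (Trg.right (Trg.left (Trg.right (Trg.left (Trg.right (Trg.left (Trg.right (chamberN 1 2)))))))))) (Trg.left (Trg.left (Trg.right (Trg.left (Trg.right (Trg.right (Trg.left (Trg.right (chamberN 1 2))))))))) :=
  HoldsN.of_red (k := 16) (m := 16) (leaf ok2 (G921 _ rfl) (G254 _ rfl) (G253 _ rfl) (by decide +kernel))
theorem l76 : HoldsN X2 (Trg.left (Trg.right (Trg.left (Trg.right (Trg.left (Trg.right (Trg.left (Trg.right (Trg.left (Trg.right (chamberN 1 2))))))))))) (Trg.left (Trg.left (Trg.left (Trg.right (Trg.left (Trg.right (Trg.right (Trg.left (Trg.right (chamberN 1 2)))))))))) :=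
  HoldsN.of_red (k := 16) (m := 16) (leaf ok2 (G926 _ rfl) (G272 _ rfl) (G252 _ rfl) (by decide +kernel))
theorem l77 : HoldsN X2 (Trg.left (Trg.right (Trg.left (Trg.right (Trg.left (Trg.right (Trg.left (Trg.right (Trg.left (Trg.right (chamberN 1 2))))))))))) (Trg.right (Trg.left (Trg.left (Trg.right (Trg.left (Trg.right (Trg.right (Trg.left (Trg.right (chamberN 1 2)))))))))) :=
  HoldsN.of_red (k := 16) (m := 16) (leaf ok2 (G927 _ rfl) (G252 _ rfl) (G252 _ rfl) (by decide +kernel))
theorem l78 : HoldsN X2 (Trg.right (Trg.right (Trg.left (Trg.right (Trg.left (Trg.right (Trg.left (Trg.right (Trg.left (Trg.right (chamberN 1 2))))))))))) (Trg.left (Trg.left (Trg.right (Trg.left (Trg.right (Trg.right (Trg.left (Trg.right (chamberN 1 2))))))))) :=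
  HoldsN.of_red (k := 16) (m := 16) (leaf ok2 (G921 _ rfl) (G254 _ rfl) (G253 _ rfl) (by decide +kernel))
theorem l79 : HoldsN X2 (Trg.left (Trg.right (Trg.left (Trg.right (Trg.left (Trg.right (Trg.left (Trg.right (chamberN 1 2))))))))) (Trg.right (Trg.left (Trg.right (Trg.left (Trg.right (Trg.right (Trg.left (Trg.right (chamberN 1 2))))))))) :=
  HoldsN.of_red (k := 16) (m := 16) (leaf ok2 (G904 _ rfl) (G282 _ rfl) (G255 _ rfl) (by decide +kernel))

end Vale.Agent.Lib.P154N.D4
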