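import Vale.Agent.Lib.P154N.D4.L0
import Vale.Agent.Lib.P154N.D4.L1
import Vale.Agent.Lib.P154N.D4.L2
import Vale.Agent.Lib.P154N.D4.L3
import Vale.Agent.Lib.P154N.D4.L4
import Vale.Agent.Lib.P154N.D4.L5
import Vale.Agent.Lib.P154N.D4.L6
import Vale.Agent.Lib.P154N.D4.L7
import Vale.Agent.Lib.P154N.D4.L8
import Vale.Agent.Lib.P154N.D4.L9
import Vale.Agent.Lib.P154N.D4.L10
import Vale.Agent.Lib.P154N.D4.L11
import Vale.Agent.Lib.P154N.D4.L12
import Vale.Agent.Lib.P154N.D4.L13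
import Vale.Agent.Lib.P154N.D4.L14
import Vale.Agent.Lib.P154N.D4.L15
import Vale.Agent.Lib.P154N.D4.L16
import Vale.Agent.Lib.P154N.D4.L17
import Vale.Agent.Lib.P154N.D4.L18
import Vale.Agent.Lib.P154N.D4.L19
import Vale.Agent.Lib.P154N.D4.L20
import Vale.Agent.Lib.P154N.D4.L21
import Vale.Agent.Lib.P154N.D4.L22
import Vale.Agent.Lib.P154N.D4.L23
import Vale.Agent.Lib.P154N.D4.L24
import Vale.Agent.Lib.P154N.D4.L25
import Vale.Agent.Lib.P154N.D4.L26
import Vale.Agent.Lib.P154N.D4.L27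
import Vale.Agent.Lib.P154N.D4.L28
import Vale.Agent.Lib.P154N.D4.L29
import Vale.Agent.Lib.P154N.D4.L30
import Vale.Agent.Lib.P154N.D4.L31
import Vale.Agent.Lib.P154N.D4.L32
import Vale.Agent.Lib.P154N.D4.L33
import Vale.Agent.Lib.P154N.D4.L34
import Vale.Agent.Lib.P154N.D4.L35
import Vale.Agent.Lib.P154N.D4.L36
import Vale.Agent.Lib.P154N.D4.L37
import Vale.Agent.Lib.P154N.D4.L38
import Vale.Agent.Lib.P154N.D4.L39
import Vale.Agent.Lib.P154N.D4.L40
import Vale.Agent.Lib.P154N.D4.L41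
import Vale.Agent.Lib.P154N.D4.L42
import Vale.Agent.Lib.P154N.D4.L43
import Vale.Agent.Lib.P154N.D4.L44
import Vale.Agent.Lib.P154N.D4.L45
import Vale.Agent.Lib.P154N.D4.L46
import Vale.Agent.Lib.P154N.D4.L47
import Vale.Agent.Lib.P154N.D4.L48
import Vale.Agent.Lib.P154N.D4.L49
import Vale.Agent.Lib.P154N.D4.L50
import Vale.Agent.Lib.P154N.D4.L51
import Vale.Agent.Lib.P154N.D4.L52
import Vale.Agent.Lib.P154N.D4.L53
import Vale.Agent.Lib.P154N.D4.L54
import Vale.Agent.Lib.P154N.D4.L55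
import Vale.Agent.Lib.P154N.D4.L56
import Vale.Agent.Lib.P154N.D4.L57
import Vale.Agent.Lib.P154N.D4.L58
import Vale.Agent.Lib.P154N.D4.L59
import Vale.Agent.Lib.P154N.D4.L60
import Vale.Agent.Lib.P154N.D4.L61
import Vale.Agent.Lib.P154N.D4.L62
import Vale.Agent.Lib.P154N.D4.L63
import Vale.Agent.Lib.P154N.D4.L64
import Vale.Agent.Lib.P154N.D4.L65
import Vale.Agent.Lib.P154N.D4.L66
import Vale.Agent.Lib.P154N.D4.L67
import Vale.Agent.Lib.P154N.D4.L68
import Vale.Agent.Lib.P154N.D4.L69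
import Vale.Agent.Lib.P154N.D4.L70
import Vale.Agent.Lib.P154N.D4.L71
import Vale.Agent.Lib.P154N.D4.L72
import Vale.Agent.Lib.P154N.D4.L73
import Vale.Agent.Lib.P154N.D4.L74
import Vale.Agent.Lib.P154N.D4.L75
import Vale.Agent.Lib.P154N.D4.L76
import Vale.Agent.Lib.P154N.D4.L77
import Vale.Agent.Lib.P154N.D4.L78
import Vale.Agent.Lib.P154N.D4.L79
import Vale.Agent.Lib.P154N.D4.L80
import Vale.Agent.Lib.P154N.D4.L81
import Vale.Agent.Lib.P154N.D4.L82
import Vale.Agent.Lib.P154N.D4.L83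
import Vale.Agent.Lib.P154N.D4.L84
import Vale.Agent.Lib.P154N.D4.L85
import Vale.Agent.Lib.P154N.D4.L86
import Vale.Agent.Lib.P154N.D4.L87
import Vale.Agent.Lib.P154N.D4.L88
import Vale.Agent.Lib.P154N.D4.L89
import Vale.Agent.Lib.P154N.D4.L90
import Vale.Agent.Lib.P154N.D4.L91
import Vale.Agent.Lib.P154N.D4.L92
import Vale.Agent.Lib.P154N.D4.L93
import Vale.Agent.Lib.P154N.D4.L94
import Vale.Agent.Lib.P154N.D4.L95
import Vale.Agent.Lib.P154N.D4.L96
import Vale.Agent.Lib.P154N.D4.L97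
import Vale.Agent.Lib.P154N.D4.L98
import Vale.Agent.Lib.P154N.D4.L99
import Vale.Agent.Lib.P154N.D4.L100
import Vale.Agent.Lib.P154N.D4.L101
import Vale.Agent.Lib.P154N.D4.L102
import Vale.Agent.Lib.P154N.D4.L103
import Vale.Agent.Lib.P154N.D4.L104
import Vale.Agent.Lib.P154N.D4.L105
import Vale.Agent.Lib.P154N.D4.L106
import Vale.Agent.Lib.P154N.D4.L107
import Vale.Agent.Lib.P154N.D4.L108
import Vale.Agent.Lib.P154N.D4.L109
import Vale.Agent.Lib.P154N.D4.L110
import Vale.Agent.Lib.P154N.D4.L111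
import Vale.Agent.Lib.P154N.D4.L112
import Vale.Agent.Lib.P154N.D4.L113
import Vale.Agent.Lib.P154N.D4.L114
import Vale.Agent.Lib.P154N.D4.L115
import Vale.Agent.Lib.P154N.D4.L116
import Vale.Agent.Lib.P154N.D4.L117
import Vale.Agent.Lib.P154N.D4.L118
import Vale.Agent.Lib.P154N.D4.L119
import Vale.Agent.Lib.P154N.D4.L120
import Vale.Agent.Lib.P154N.D4.L121
import Vale.Agent.Lib.P154N.D4.L122
import Vale.Agent.Lib.P154N.D4.L123
import Vale.Agent.Lib.P154N.D4.L124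
import Vale.Agent.Lib.P154N.D4.L125
import Vale.Agent.Lib.P154N.D4.L126
import Vale.Agent.Lib.P154N.D4.L127

/-!
# The merge inequalities for the tree with 4 children
-/

namespace Vale.Agent.Lib.P154N.D4

open Vale.Agent.Lib.P154 Vale.Agent.Lib.P154K Vale.Agent.Lib.P154Neg Tp

noncomputable section

/-- The value of the scale. -/
abbrev ss : ℝ := ((1 : ℕ) : ℝ) / ((2 : ℕ) : ℝ)

theorem root2_0 : HoldsN X2 (chamberN 1 2) (chamberN 1 2) :=
  (HoldsN.splitA (HoldsN.splitB (HoldsN.splitA (HoldsN.splitA (HoldsN.splitB (HoldsN.splitB l0 l1) l2) (HoldsN.splitB (HoldsN.splitB l3 (HoldsN.splitA (HoldsN.splitA l4 (HoldsN.splitB (HoldsN.splitB l5 l6) l7)) l8)) l9)) (HoldsN.splitB (HoldsN.splitB (HoldsN.splitA (HoldsN.splitB l10 l11) l12) l13) (HoldsN.splitA (HoldsN.splitB (HoldsN.splitA l14 (HoldsN.splitB (HoldsN.splitB l15 (HoldsN.splitA (HoldsN.splitA l16 (HoldsN.splitB l17 (HoldsN.splitA (HoldsN.splitB (HoldsN.splitA l18 (HoldsN.splitB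 l19 l20)) l21) l22))) l23)) l24)) (HoldsN.splitB l25 (HoldsN.splitA l26 (HoldsN.splitB l27 l28)))) l29))) (HoldsN.splitB l30 (HoldsN.splitA (HoldsN.splitA (HoldsN.splitB (HoldsN.splitA (HoldsN.splitB l31 l32) (HoldsN.splitB l33 l34)) l35) (HoldsN.splitB (HoldsN.splitB l36 (HoldsN.splitA (HoldsN.splitA l37 (HoldsN.splitB (HoldsN.splitB l38 l39) l40)) l41)) l42)) (HoldsN.splitB (HoldsN.splitA (HoldsN.splitB l43 l44) (HoldsN.splitA (HoldsN.splitB l45 l46) (HoldsN.splitB l47 l48))) l49)))) (HoldsN.splitA (HoldsN.splitB (HoldsN.splitB (HoldsN.splitB (HoldsN.splitA l50 (HoldsN.splitA l51 l52)) l53) (HoldsN.splitA l54 l55)) (HoldsN.splitA (HoldsN.splitB l56 (HoldsN.splitB (HoldsN.splitB (HoldsN.splitA (HoldsN.splitA (HoldsN.splitA (HoldsN.splitB l85 (HoldsN.splitB l86 l87)) (HoldsN.splitB l88 (HoldsN.splitB l89 l90))) (HoldsN.splitB l91 (HoldsN.splitB l92 l93))) l94) l95) l114)) (HoldsN.splitA (HoldsN.splitB (HoldsN.splitB (HoldsN.splitB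 (HoldsN.splitB l57 (HoldsN.splitA l58 (HoldsN.splitA (HoldsN.splitB l59 l60) l61))) l62) (HoldsN.splitB (HoldsN.splitA l63 (HoldsN.splitA (HoldsN.splitB l64 (HoldsN.splitB l65 l66)) l67)) (HoldsN.splitB (HoldsN.splitA l68 (HoldsN.splitA (HoldsN.splitB (HoldsN.splitA l69 (HoldsN.splitA (HoldsN.splitB l70 (HoldsN.splitB l71 l72)) l73)) (HoldsN.splitB (HoldsN.splitA l74 (HoldsN.splitA (HoldsN.splitB (HoldsN.splitA l75 (HoldsN.splitA (HoldsN.splitB l76 l77) l78)) l79) l80)) l81)) l82)) l83))) (HoldsN.splitB (HoldsN.splitB (HoldsN.splitA (HoldsN.splitB l96 (HoldsN.splitB l97 l98)) (HoldsN.splitA l99 (HoldsN.splitB l100 (HoldsN.splitB l101 l102)))) l103) (HoldsN.splitB l115 l116))) (HoldsN.splitB l84 (HoldsN.splitB (HoldsN.splitB (HoldsN.splitA (HoldsN.splitA (HoldsN.splitB l104 (HoldsN.splitB l105 l106)) (HoldsN.splitB l107 (HoldsN.splitB l108 l109))) (HoldsN.splitB l110 (HoldsN.splitB l111 l112))) l113) l117))))) (HoldsN.splitB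 (HoldsN.splitA (HoldsN.splitB (HoldsN.splitB l118 (HoldsN.splitA l119 (HoldsN.splitA (HoldsN.splitB (HoldsN.splitB l120 (HoldsN.splitA l121 l122)) l123) l124))) l125) (HoldsN.splitB (HoldsN.splitB l126 l127) l128)) (HoldsN.splitB l129 (HoldsN.splitA (HoldsN.splitB (HoldsN.splitA (HoldsN.splitB (HoldsN.splitA l130 (HoldsN.splitA (HoldsN.splitB l131 (HoldsN.splitB l132 l133)) l134)) l135) (HoldsN.splitB l136 (HoldsN.splitA (HoldsN.splitB (HoldsN.splitA l137 (HoldsN.splitB l138 l139)) l140) l141))) l142) (HoldsN.splitB (HoldsN.splitB (HoldsN.splitA (HoldsN.splitA (HoldsN.splitA (HoldsN.splitB l143 (HoldsN.splitB l144 l145)) l146) l147) (HoldsN.splitA (HoldsN.splitB l148 (HoldsN.splitB l149 l150)) (HoldsN.splitA l151 (HoldsN.splitB l152 (HoldsN.splitB l153 l154))))) l155) l156))))))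

theorem root2_1 : HoldsN X2 (chamberN 1 2) (chamberNR 1 2) :=
  (HoldsN.splitA (HoldsN.splitB (HoldsN.splitA (HoldsN.splitA (HoldsN.splitB (HoldsN.splitB (HoldsN.splitA l157 (HoldsN.splitB l158 (HoldsN.splitA (HoldsN.splitB l159 l160) l161))) l162) (HoldsN.splitA l163 (HoldsN.splitB l164 (HoldsN.splitB l165 l166)))) (HoldsN.splitB (HoldsN.splitB l167 (HoldsN.splitA (HoldsN.splitA l168 l169) l170)) l171)) (HoldsN.splitB (HoldsN.splitB (HoldsN.splitA (HoldsN.splitB l172 l173) (HoldsN.splitA (HoldsN.splitB l174 (HoldsN.splitB l175 l176)) (HoldsN.splitB l177 l178))) l179) (HoldsN.splitA (HoldsN.splitB (HoldsN.splitA (HoldsN.splitA l180 l181) (HoldsN.splitA (HoldsN.splitB (HoldsN.splitB l182 (HoldsN.splitA l184 (HoldsN.splitB (HoldsN.splitB (HoldsN.splitA (HoldsN.splitB l185 l186) l187) l188) (HoldsN.splitA (HoldsN.splitB (HoldsN.splitA l189 (HoldsN.splitB (HoldsN.splitB l190 l191) l192)) (HoldsN.splitB l193 (HoldsN.splitA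 l194 l195))) l196)))) (HoldsN.splitB (HoldsN.splitA l198 l199) l200)) (HoldsN.splitB (HoldsN.splitB l183 l197) l201))) (HoldsN.splitB l202 (HoldsN.splitA l203 (HoldsN.splitB (HoldsN.splitA (HoldsN.splitB l204 l205) l206) l207)))) (HoldsN.splitA (HoldsN.splitB l208 (HoldsN.splitB l209 l210)) (HoldsN.splitB l211 (HoldsN.splitB l212 l213)))))) (HoldsN.splitB l214 (HoldsN.splitA (HoldsN.splitA (HoldsN.splitA (HoldsN.splitB (HoldsN.splitB l215 l216) l220) (HoldsN.splitB (HoldsN.splitB (HoldsN.splitA l217 l218) l219) (HoldsN.splitA (HoldsN.splitB (HoldsN.splitB (HoldsN.splitA l221 (HoldsN.splitB l222 l223)) l224) (HoldsN.splitA l225 (HoldsN.splitB l226 (HoldsN.splitB l227 l228)))) l229))) (HoldsN.splitB (HoldsN.splitB l230 (HoldsN.splitA (HoldsN.splitA l231 (HoldsN.splitB (HoldsN.splitB l232 l233) l234)) l235)) l236)) (HoldsN.splitA (HoldsN.splitB (HoldsN.splitB l237 l238) l243) (HoldsN.splitA (HoldsN.splitB (HoldsN.splitB l239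 l240) (HoldsN.splitB (HoldsN.splitB (HoldsN.splitA l244 (HoldsN.splitA (HoldsN.splitB l245 l246) l247)) l248) (HoldsN.splitA l249 (HoldsN.splitA (HoldsN.splitB l250 (HoldsN.splitB l251 l252)) l253)))) (HoldsN.splitB (HoldsN.splitB l241 l242) l254)))))) (HoldsN.splitA (HoldsN.splitB (HoldsN.splitB (HoldsN.splitB (HoldsN.splitA (HoldsN.splitB l255 (HoldsN.splitA (HoldsN.splitA l256 l257) (HoldsN.splitB l258 l259))) (HoldsN.splitA l260 (HoldsN.splitB l261 (HoldsN.splitA l262 l263)))) l264) (HoldsN.splitA (HoldsN.splitB l265 (HoldsN.splitB l266 l267)) (HoldsN.splitA l268 (HoldsN.splitB l269 (HoldsN.splitB l270 l271))))) (HoldsN.splitA (HoldsN.splitB l272 (HoldsN.splitB (HoldsN.splitB (HoldsN.splitA (HoldsN.splitA (HoldsN.splitA (HoldsN.splitB l299 (HoldsN.splitB l300 l301)) (HoldsN.splitB l302 (HoldsN.splitB l303 l304))) (HoldsN.splitB l305 (HoldsN.splitB l306 l307))) (HoldsN.splitA (HoldsN.splitB l308 l309) (HoldsN.splitA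 l310 (HoldsN.splitB l311 l312)))) l313) (HoldsN.splitA (HoldsN.splitA (HoldsN.splitB l332 (HoldsN.splitA l333 l334)) l335) (HoldsN.splitB (HoldsN.splitB (HoldsN.splitA (HoldsN.splitB l336 l337) l338) l339) (HoldsN.splitA (HoldsN.splitB l340 (HoldsN.splitB l341 l342)) (HoldsN.splitA l343 l344)))))) (HoldsN.splitA (HoldsN.splitB (HoldsN.splitB (HoldsN.splitB (HoldsN.splitB l273 (HoldsN.splitA l274 (HoldsN.splitA (HoldsN.splitB l275 l276) l277))) l278) (HoldsN.splitB (HoldsN.splitA l279 (HoldsN.splitA l280 l281)) (HoldsN.splitB (HoldsN.splitA l282 (HoldsN.splitA (HoldsN.splitB (HoldsN.splitA l283 (HoldsN.splitA (HoldsN.splitB l284 (HoldsN.splitB l285 l286)) l287)) (HoldsN.splitB (HoldsN.splitA l288 (HoldsN.splitA (HoldsN.splitB (HoldsN.splitA l289 (HoldsN.splitA (HoldsN.splitB l290 l291) l292)) l293) l294)) l295)) l296)) l297))) (HoldsN.splitB (HoldsN.splitB (HoldsN.splitA (HoldsN.splitB l314 (HoldsN.splitB l315 l316)) (HoldsN.splitA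 l317 (HoldsN.splitB l318 (HoldsN.splitB l319 l320)))) l321) (HoldsN.splitB l345 (HoldsN.splitA (HoldsN.splitB l346 l347) (HoldsN.splitA l348 (HoldsN.splitB l349 l350)))))) (HoldsN.splitB l298 (HoldsN.splitB (HoldsN.splitB (HoldsN.splitA (HoldsN.splitA (HoldsN.splitB l322 (HoldsN.splitB l323 l324)) (HoldsN.splitB l325 (HoldsN.splitB l326 l327))) (HoldsN.splitB l328 (HoldsN.splitB l329 l330))) l331) (HoldsN.splitA l351 (HoldsN.splitB l352 (HoldsN.splitB l353 l354)))))))) (HoldsN.splitB (HoldsN.splitA (HoldsN.splitB (HoldsN.splitB l355 (HoldsN.splitA l356 (HoldsN.splitA (HoldsN.splitB (HoldsN.splitB l357 (HoldsN.splitA l358 l359)) l360) l361))) l362) (HoldsN.splitB (HoldsN.splitB (HoldsN.splitB l363 (HoldsN.splitA (HoldsN.splitA l364 (HoldsN.splitB l365 l366)) l367)) l368) (HoldsN.splitB l369 (HoldsN.splitB l370 l371)))) (HoldsN.splitB l372 (HoldsN.splitA (HoldsN.splitB (HoldsN.splitA (HoldsN.splitB (HoldsN.splitA l373 (HoldsN.splitA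 (HoldsN.splitB l374 (HoldsN.splitB l375 l376)) l377)) l378) (HoldsN.splitB l379 (HoldsN.splitA (HoldsN.splitB (HoldsN.splitA l380 (HoldsN.splitB l381 l382)) l383) l384))) l385) (HoldsN.splitB (HoldsN.splitB (HoldsN.splitA (HoldsN.splitA (HoldsN.splitA (HoldsN.splitB l386 (HoldsN.splitB l387 l388)) l389) (HoldsN.splitB l390 l391)) (HoldsN.splitA (HoldsN.splitB l392 (HoldsN.splitB l393 l394)) (HoldsN.splitA l395 (HoldsN.splitB l396 (HoldsN.splitB l397 l398))))) l399) (HoldsN.splitA (HoldsN.splitA l400 (HoldsN.splitB (HoldsN.splitB (HoldsN.splitB l401 l402) l403) (HoldsN.splitB l404 (HoldsN.splitB l405 l406)))) l407)))))))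

theorem root3_0 : HoldsN X3 (chamber 1 1) (chamberN 1 2) :=
  (HoldsN.splitA (HoldsN.splitA (HoldsN.splitA (HoldsN.splitB (HoldsN.splitB (HoldsN.splitB (HoldsN.splitA (HoldsN.splitB l408 l409) (HoldsN.splitB l410 (HoldsN.splitA l411 l412))) l413) (HoldsN.splitA l414 (HoldsN.splitB l415 (HoldsN.splitB l416 l417)))) (HoldsN.splitA (HoldsN.splitB l435 (HoldsN.splitB (HoldsN.splitB (HoldsN.splitA l494 (HoldsN.splitA (HoldsN.splitB l495 (HoldsN.splitB l496 l497)) l498)) l499) (HoldsN.splitB l502 (HoldsN.splitA l503 (HoldsN.splitA l504 l505))))) (HoldsN.splitB (HoldsN.splitB l436 (HoldsN.splitB l437 l438)) (HoldsN.splitB (HoldsN.splitB l500 l501) (HoldsN.splitA (HoldsN.splitB (HoldsN.splitB l506 l507) l508) l509))))) (HoldsN.splitB (HoldsN.splitB (HoldsN.splitB l418 l419) l420) (HoldsN.splitB l439 (HoldsN.splitB (HoldsN.splitB l510 l511) l512)))) (HoldsN.splitB (HoldsN.splitB (HoldsN.splitB (HoldsN.splitA (HoldsN.splitB l421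 (HoldsN.splitA (HoldsN.splitA l422 l423) l424)) (HoldsN.splitA (HoldsN.splitB l425 (HoldsN.splitB l426 l427)) (HoldsN.splitB l428 (HoldsN.splitA l429 l430)))) l431) (HoldsN.splitA l432 (HoldsN.splitA l433 l434))) (HoldsN.splitA (HoldsN.splitB (HoldsN.splitB (HoldsN.splitA (HoldsN.splitA (HoldsN.splitB (HoldsN.splitB l440 (HoldsN.splitA l441 l442)) l443) l444) (HoldsN.splitB (HoldsN.splitB l445 (HoldsN.splitA (HoldsN.splitA (HoldsN.splitA l446 l447) (HoldsN.splitB l448 l449)) (HoldsN.splitA (HoldsN.splitA (HoldsN.splitB (HoldsN.splitB l450 l452) l456) (HoldsN.splitB (HoldsN.splitB l451 (HoldsN.splitA (HoldsN.splitB l453 l454) l455)) l457)) (HoldsN.splitA l458 l459)))) l460)) (HoldsN.splitB l461 (HoldsN.splitA (HoldsN.splitA (HoldsN.splitB l462 l463) l464) (HoldsN.splitB (HoldsN.splitA (HoldsN.splitB l465 l466) (HoldsN.splitA (HoldsN.splitB l467 (HoldsN.splitB l468 l469)) (HoldsN.splitB l470 l471))) l472)))) (HoldsN.splitB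 (HoldsN.splitB (HoldsN.splitA (HoldsN.splitA l513 (HoldsN.splitB l514 (HoldsN.splitB (HoldsN.splitA (HoldsN.splitA (HoldsN.splitA l515 l516) l517) (HoldsN.splitA (HoldsN.splitB l518 (HoldsN.splitB l519 l520)) (HoldsN.splitA l521 l522))) l523))) l524) l525) (HoldsN.splitA (HoldsN.splitA (HoldsN.splitB l536 (HoldsN.splitA l537 (HoldsN.splitB (HoldsN.splitA (HoldsN.splitB l538 l539) l540) l541))) (HoldsN.splitB l542 (HoldsN.splitB l543 l544))) (HoldsN.splitB l545 (HoldsN.splitA l546 (HoldsN.splitA (HoldsN.splitB (HoldsN.splitB (HoldsN.splitB l547 l548) (HoldsN.splitA l549 l550)) l551) l552)))))) (HoldsN.splitA (HoldsN.splitB (HoldsN.splitB (HoldsN.splitA (HoldsN.splitB (HoldsN.splitB l473 (HoldsN.splitA l475 (HoldsN.splitB l476 l477))) l479) (HoldsN.splitB (HoldsN.splitB l474 l478) l480)) (HoldsN.splitB l481 (HoldsN.splitB (HoldsN.splitA (HoldsN.splitB l482 l483) l484) l485))) (HoldsN.splitB (HoldsN.splitB l526 l527) (HoldsN.splitB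 (HoldsN.splitB l553 l554) (HoldsN.splitA (HoldsN.splitB (HoldsN.splitA l555 (HoldsN.splitB l556 l557)) l558) l559)))) (HoldsN.splitB (HoldsN.splitB (HoldsN.splitA l486 (HoldsN.splitB (HoldsN.splitB l487 l488) l489)) (HoldsN.splitB l490 (HoldsN.splitA l491 (HoldsN.splitB l492 l493)))) (HoldsN.splitB (HoldsN.splitB (HoldsN.splitA (HoldsN.splitA (HoldsN.splitB l528 l529) (HoldsN.splitB l530 (HoldsN.splitB (HoldsN.splitA l531 l532) l533))) l534) l535) (HoldsN.splitA (HoldsN.splitB l560 (HoldsN.splitA l561 (HoldsN.splitB l562 l563))) (HoldsN.splitB l564 (HoldsN.splitB (HoldsN.splitA (HoldsN.splitA l565 l566) l567) l568))))))))) (HoldsN.splitA (HoldsN.splitB (HoldsN.splitB (HoldsN.splitB (HoldsN.splitA (HoldsN.splitB l569 l570) (HoldsN.splitA l571 (HoldsN.splitB l572 l573))) l574) (HoldsN.splitA (HoldsN.splitB l575 (HoldsN.splitB l576 l577)) (HoldsN.splitA l578 (HoldsN.splitB l579 (HoldsN.splitB l580 l581))))) (HoldsN.splitA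 (HoldsN.splitB (HoldsN.splitB l582 (HoldsN.splitB (HoldsN.splitA l583 l584) l585)) (HoldsN.splitB l603 l606)) (HoldsN.splitA (HoldsN.splitB (HoldsN.splitB (HoldsN.splitB (HoldsN.splitB l586 l587) l588) (HoldsN.splitB (HoldsN.splitA (HoldsN.splitB l589 (HoldsN.splitB (HoldsN.splitA (HoldsN.splitA l590 l591) l592) l593)) (HoldsN.splitA l594 (HoldsN.splitB l595 (HoldsN.splitB l596 l597)))) (HoldsN.splitB l598 l599))) (HoldsN.splitB l604 l607)) (HoldsN.splitB (HoldsN.splitB l600 (HoldsN.splitB l601 l602)) (HoldsN.splitB l605 l608))))) (HoldsN.splitA (HoldsN.splitA (HoldsN.splitB (HoldsN.splitB (HoldsN.splitB (HoldsN.splitB (HoldsN.splitA l609 (HoldsN.splitA l610 l611)) l612) (HoldsN.splitB (HoldsN.splitB (HoldsN.splitA l614 (HoldsN.splitA l615 l616)) l617) (HoldsN.splitA l618 (HoldsN.splitA l619 l620)))) (HoldsN.splitB (HoldsN.splitB (HoldsN.splitB l622 (HoldsN.splitA l623 (HoldsN.splitA l624 l625))) l626) (HoldsN.splitB l627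 (HoldsN.splitB (HoldsN.splitA l628 l629) l630)))) (HoldsN.splitB l640 (HoldsN.splitB (HoldsN.splitB l645 (HoldsN.splitB (HoldsN.splitA l646 l647) l648)) l650))) (HoldsN.splitB (HoldsN.splitB (HoldsN.splitB l613 l621) l631) (HoldsN.splitB l641 (HoldsN.splitB l649 l651)))) (HoldsN.splitB (HoldsN.splitB (HoldsN.splitB (HoldsN.splitB l632 (HoldsN.splitA (HoldsN.splitA l633 l634) l635)) l636) (HoldsN.splitB l637 (HoldsN.splitB l638 l639))) (HoldsN.splitB (HoldsN.splitB l642 (HoldsN.splitB l643 l644)) (HoldsN.splitB (HoldsN.splitB l652 l653) (HoldsN.splitA (HoldsN.splitA l654 l655) l656)))))))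

theorem root3_1 : HoldsN X3 (chamber 1 1) (chamberNR 1 2) :=
  (HoldsN.splitA (HoldsN.splitA (HoldsN.splitA (HoldsN.splitB (HoldsN.splitB (HoldsN.splitB (HoldsN.splitA l657 (HoldsN.splitB l658 l659)) l660) (HoldsN.splitA l661 (HoldsN.splitB l662 (HoldsN.splitB l663 l664)))) (HoldsN.splitA (HoldsN.splitB l675 (HoldsN.splitB (HoldsN.splitB (HoldsN.splitA l703 (HoldsN.splitA (HoldsN.splitB l704 l705) l706)) l707) l710)) (HoldsN.splitB (HoldsN.splitB l676 (HoldsN.splitB l677 l678)) (HoldsN.splitB (HoldsN.splitB l708 l709) l711)))) (HoldsN.splitB (HoldsN.splitB (HoldsN.splitB l665 l666) l667) (HoldsN.splitB l679 (HoldsN.splitB (HoldsN.splitB l712 l713) l714)))) (HoldsN.splitB (HoldsN.splitB (HoldsN.splitB (HoldsN.splitA l668 (HoldsN.splitA l669 l670)) l671) (HoldsN.splitA l672 (HoldsN.splitA l673 l674))) (HoldsN.splitA (HoldsN.splitB (HoldsN.splitB (HoldsN.splitA l680 (HoldsN.splitB (HoldsN.splitB l681 l682) l683)) (HoldsN.splitB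 l684 (HoldsN.splitA l685 (HoldsN.splitB (HoldsN.splitA (HoldsN.splitB l686 l687) (HoldsN.splitA (HoldsN.splitB l688 l689) (HoldsN.splitB l690 l691))) l692)))) (HoldsN.splitB (HoldsN.splitB (HoldsN.splitA (HoldsN.splitA l715 (HoldsN.splitB l716 (HoldsN.splitB (HoldsN.splitA (HoldsN.splitA (HoldsN.splitA l717 l718) l719) (HoldsN.splitA (HoldsN.splitB l720 (HoldsN.splitB l721 l722)) (HoldsN.splitA l723 l724))) l725))) l726) l727) (HoldsN.splitA (HoldsN.splitA l736 (HoldsN.splitB l737 (HoldsN.splitB l738 l739))) l740))) (HoldsN.splitA (HoldsN.splitB (HoldsN.splitB (HoldsN.splitB (HoldsN.splitB l693 l694) l695) (HoldsN.splitB l696 (HoldsN.splitB (HoldsN.splitA l697 l698) l699))) (HoldsN.splitB (HoldsN.splitB l728 l729) l741)) (HoldsN.splitB (HoldsN.splitB l700 (HoldsN.splitB l701 l702)) (HoldsN.splitB (HoldsN.splitB (HoldsN.splitA (HoldsN.splitA l730 (HoldsN.splitB l731 (HoldsN.splitB l732 l733))) l734) l735) (HoldsN.splitA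 l742 l743))))))) (HoldsN.splitA (HoldsN.splitB (HoldsN.splitB (HoldsN.splitB (HoldsN.splitA (HoldsN.splitB l744 l745) (HoldsN.splitA (HoldsN.splitB l746 l747) (HoldsN.splitB l748 l749))) l750) (HoldsN.splitA (HoldsN.splitB l751 (HoldsN.splitB l752 l753)) (HoldsN.splitA l754 (HoldsN.splitB l755 (HoldsN.splitB l756 l757))))) (HoldsN.splitA (HoldsN.splitB (HoldsN.splitB l758 (HoldsN.splitB (HoldsN.splitA l759 l760) l761)) (HoldsN.splitB l777 l780)) (HoldsN.splitA (HoldsN.splitB (HoldsN.splitB (HoldsN.splitB (HoldsN.splitB l762 l763) l764) (HoldsN.splitB (HoldsN.splitA (HoldsN.splitB l765 (HoldsN.splitB l766 l767)) (HoldsN.splitA l768 (HoldsN.splitB l769 (HoldsN.splitB l770 l771)))) (HoldsN.splitB l772 l773))) (HoldsN.splitB l778 l781)) (HoldsN.splitB (HoldsN.splitB l774 (HoldsN.splitB l775 l776)) (HoldsN.splitB l779 l782))))) (HoldsN.splitA (HoldsN.splitA (HoldsN.splitB (HoldsN.splitB (HoldsN.splitB (HoldsN.splitB (HoldsN.splitA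 l783 l784) l785) (HoldsN.splitB (HoldsN.splitB (HoldsN.splitA l787 (HoldsN.splitA l788 l789)) l790) (HoldsN.splitA l791 (HoldsN.splitA l792 l793)))) (HoldsN.splitB (HoldsN.splitB (HoldsN.splitB l795 (HoldsN.splitA l796 l797)) l798) (HoldsN.splitB l799 (HoldsN.splitB (HoldsN.splitA l800 l801) l802)))) (HoldsN.splitB l810 (HoldsN.splitB (HoldsN.splitB l815 (HoldsN.splitB (HoldsN.splitA l816 (HoldsN.splitA l817 l818)) l819)) l821))) (HoldsN.splitB (HoldsN.splitB (HoldsN.splitB l786 l794) l803) (HoldsN.splitB l811 (HoldsN.splitB l820 l822)))) (HoldsN.splitB (HoldsN.splitB (HoldsN.splitB (HoldsN.splitB l804 l805) l806) (HoldsN.splitB l807 (HoldsN.splitB l808 l809))) (HoldsN.splitB (HoldsN.splitB l812 (HoldsN.splitB l813 l814)) (HoldsN.splitB (HoldsN.splitB l823 l824) l825))))))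

theorem root4_0 : HoldsN X4 (chamber 1 1) (chamberN 1 2) :=
  (HoldsN.splitA (HoldsN.splitA (HoldsN.splitA (HoldsN.splitB (HoldsN.splitB (HoldsN.splitB (HoldsN.splitA l826 (HoldsN.splitB l827 (HoldsN.splitA (HoldsN.splitB l828 l829) l830))) l831) (HoldsN.splitA l832 (HoldsN.splitB l833 (HoldsN.splitB l834 l835)))) (HoldsN.splitA (HoldsN.splitB l854 (HoldsN.splitB (HoldsN.splitB l908 l909) l912)) (HoldsN.splitB (HoldsN.splitB (HoldsN.splitA (HoldsN.splitB (HoldsN.splitB l855 l856) l857) l858) (HoldsN.splitB l859 (HoldsN.splitA (HoldsN.splitB l860 l861) l862))) (HoldsN.splitB (HoldsN.splitB l910 l911) (HoldsN.splitA (HoldsN.splitB (HoldsN.splitB (HoldsN.splitA l913 l914) l915) (HoldsN.splitA l916 l917)) l918))))) (HoldsN.splitB (HoldsN.splitB l836 l837) (HoldsN.splitB l863 (HoldsN.splitB l919 l920)))) (HoldsN.splitB (HoldsN.splitB (HoldsN.splitB (HoldsN.splitA (HoldsN.splitB l838 (HoldsN.splitA (HoldsN.splitA l839 l840)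 l841)) (HoldsN.splitA (HoldsN.splitB l842 (HoldsN.splitB l843 l844)) (HoldsN.splitB l845 (HoldsN.splitA l846 l847)))) l848) (HoldsN.splitA l849 (HoldsN.splitA (HoldsN.splitB l850 (HoldsN.splitB l851 l852)) l853))) (HoldsN.splitA (HoldsN.splitB (HoldsN.splitB (HoldsN.splitA (HoldsN.splitA (HoldsN.splitB (HoldsN.splitB l864 l865) l866) l867) (HoldsN.splitB (HoldsN.splitB l868 (HoldsN.splitA (HoldsN.splitA l869 (HoldsN.splitB (HoldsN.splitB l870 l871) l872)) l873)) l874)) (HoldsN.splitB l875 (HoldsN.splitA (HoldsN.splitA (HoldsN.splitB l876 l877) l878) (HoldsN.splitB (HoldsN.splitA (HoldsN.splitB l879 (HoldsN.splitA l880 (HoldsN.splitB (HoldsN.splitA (HoldsN.splitB l881 l882) l883) l884))) (HoldsN.splitA (HoldsN.splitB l885 l886) (HoldsN.splitB l887 l888))) l889)))) (HoldsN.splitB (HoldsN.splitB (HoldsN.splitA (HoldsN.splitA (HoldsN.splitA l921 l922) (HoldsN.splitB l923 (HoldsN.splitB l924 l925))) (HoldsN.splitA l926 (HoldsN.splitA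 l927 l928))) l929) (HoldsN.splitA (HoldsN.splitA (HoldsN.splitB l937 l938) l939) (HoldsN.splitB l940 l941)))) (HoldsN.splitA (HoldsN.splitB (HoldsN.splitB (HoldsN.splitB (HoldsN.splitB l890 (HoldsN.splitA l891 l892)) l893) (HoldsN.splitB l894 (HoldsN.splitB (HoldsN.splitA (HoldsN.splitB l895 l896) (HoldsN.splitA l897 l898)) l899))) (HoldsN.splitB (HoldsN.splitB (HoldsN.splitA l930 (HoldsN.splitA l931 l932)) l933) (HoldsN.splitB (HoldsN.splitB (HoldsN.splitA l942 (HoldsN.splitA l943 l944)) l945) (HoldsN.splitA l946 (HoldsN.splitA (HoldsN.splitB l947 l948) l949))))) (HoldsN.splitB (HoldsN.splitB (HoldsN.splitA l900 (HoldsN.splitB (HoldsN.splitB l901 l902) l903)) (HoldsN.splitB l904 (HoldsN.splitA l905 (HoldsN.splitB l906 l907)))) (HoldsN.splitB (HoldsN.splitB (HoldsN.splitA l934 l935) l936) (HoldsN.splitA (HoldsN.splitB l950 l951) (HoldsN.splitB (HoldsN.splitB l952 l953) l954)))))))) (HoldsN.splitA (HoldsN.splitA (HoldsN.splitB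 (HoldsN.splitB (HoldsN.splitB (HoldsN.splitB l955 (HoldsN.splitA (HoldsN.splitA (HoldsN.splitB l956 l957) l958) (HoldsN.splitB l959 l960))) (HoldsN.splitA (HoldsN.splitA l967 l968) l969)) (HoldsN.splitB (HoldsN.splitA (HoldsN.splitA l973 l974) l975) (HoldsN.splitB l976 (HoldsN.splitA (HoldsN.splitA l977 l978) l979)))) (HoldsN.splitB (HoldsN.splitB (HoldsN.splitA (HoldsN.splitA l988 l989) (HoldsN.splitB (HoldsN.splitB l990 l991) l992)) (HoldsN.splitB l993 (HoldsN.splitA (HoldsN.splitA l994 l995) (HoldsN.splitB l996 l997)))) (HoldsN.splitB (HoldsN.splitB l1034 l1035) (HoldsN.splitA (HoldsN.splitA (HoldsN.splitB (HoldsN.splitB l1040 l1041) l1042) l1043) (HoldsN.splitB (HoldsN.splitB l1044 l1045) (HoldsN.splitA l1046 l1047)))))) (HoldsN.splitA (HoldsN.splitB (HoldsN.splitB (HoldsN.splitB (HoldsN.splitB l961 (HoldsN.splitB l962 l963)) l970) (HoldsN.splitB l980 (HoldsN.splitB l981 l982))) (HoldsN.splitB (HoldsN.splitB (HoldsN.splitB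 (HoldsN.splitB (HoldsN.splitA l998 (HoldsN.splitA (HoldsN.splitB l999 l1000) l1001)) l1002) (HoldsN.splitA l1003 (HoldsN.splitA l1004 l1005))) (HoldsN.splitB (HoldsN.splitA (HoldsN.splitB l1006 (HoldsN.splitB (HoldsN.splitA (HoldsN.splitA (HoldsN.splitA l1007 l1008) l1009) (HoldsN.splitA l1010 (HoldsN.splitA l1011 l1012))) l1013)) (HoldsN.splitA (HoldsN.splitB (HoldsN.splitB (HoldsN.splitB (HoldsN.splitA l1014 (HoldsN.splitA l1015 l1016)) l1017) (HoldsN.splitA l1018 (HoldsN.splitA l1019 l1020))) (HoldsN.splitB l1021 (HoldsN.splitB l1022 l1023))) (HoldsN.splitB l1024 (HoldsN.splitB (HoldsN.splitA l1025 l1026) l1027)))) (HoldsN.splitB (HoldsN.splitA l1028 l1029) l1030))) (HoldsN.splitB (HoldsN.splitB l1036 l1037) (HoldsN.splitB (HoldsN.splitB l1048 l1049) l1050)))) (HoldsN.splitB (HoldsN.splitB (HoldsN.splitB (HoldsN.splitB l964 (HoldsN.splitA l965 l966)) (HoldsN.splitA l971 l972)) (HoldsN.splitB (HoldsN.splitA l983 l984)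 (HoldsN.splitB l985 (HoldsN.splitA l986 l987)))) (HoldsN.splitB (HoldsN.splitB l1031 (HoldsN.splitB l1032 l1033)) (HoldsN.splitB (HoldsN.splitB l1038 l1039) (HoldsN.splitA l1051 l1052)))))) (HoldsN.splitA (HoldsN.splitB (HoldsN.splitA (HoldsN.splitB (HoldsN.splitB (HoldsN.splitB l1053 l1054) l1056) (HoldsN.splitB l1059 (HoldsN.splitB l1060 l1061))) (HoldsN.splitB (HoldsN.splitB l1055 (HoldsN.splitA l1057 l1058)) l1062)) (HoldsN.splitB (HoldsN.splitA l1073 l1074) (HoldsN.splitB (HoldsN.splitA l1078 l1079) l1080))) (HoldsN.splitB (HoldsN.splitB (HoldsN.splitB (HoldsN.splitB l1063 (HoldsN.splitA (HoldsN.splitA l1064 (HoldsN.splitB l1065 l1066)) l1067)) l1068) (HoldsN.splitB (HoldsN.splitA l1069 l1070) (HoldsN.splitB l1071 l1072))) (HoldsN.splitB (HoldsN.splitB l1075 (HoldsN.splitB l1076 l1077)) (HoldsN.splitB (HoldsN.splitB l1081 l1082) (HoldsN.splitA (HoldsN.splitA l1083 (HoldsN.splitB (HoldsN.splitB l1084 l1085) l1086))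 l1087)))))))

theorem root4_1 : HoldsN X4 (chamber 1 1) (chamberNR 1 2) :=
  (HoldsN.splitA (HoldsN.splitA (HoldsN.splitA (HoldsN.splitB (HoldsN.splitB (HoldsN.splitB (HoldsN.splitA l1088 (HoldsN.splitB l1089 l1090)) l1091) (HoldsN.splitA l1092 (HoldsN.splitB l1093 (HoldsN.splitB l1094 l1095)))) (HoldsN.splitA (HoldsN.splitB l1104 (HoldsN.splitB (HoldsN.splitB l1141 l1142) l1145)) (HoldsN.splitB (HoldsN.splitB l1105 (HoldsN.splitB l1106 l1107)) (HoldsN.splitB (HoldsN.splitB l1143 l1144) l1146)))) (HoldsN.splitB l1096 (HoldsN.splitB l1108 (HoldsN.splitB l1147 l1148)))) (HoldsN.splitB (HoldsN.splitB (HoldsN.splitB (HoldsN.splitA l1097 (HoldsN.splitA l1098 l1099)) l1100) (HoldsN.splitA l1101 (HoldsN.splitA l1102 l1103))) (HoldsN.splitA (HoldsN.splitB (HoldsN.splitB (HoldsN.splitA (HoldsN.splitA (HoldsN.splitB l1109 l1110) l1111) (HoldsN.splitB (HoldsN.splitB l1112 (HoldsN.splitA l1113 l1114)) l1115)) (HoldsN.splitB l1116 (HoldsN.splitA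 (HoldsN.splitA l1117 l1118) (HoldsN.splitB (HoldsN.splitA (HoldsN.splitB l1119 (HoldsN.splitA l1120 (HoldsN.splitB (HoldsN.splitA (HoldsN.splitB l1121 l1122) l1123) l1124))) (HoldsN.splitA (HoldsN.splitB l1125 l1126) (HoldsN.splitB l1127 l1128))) l1129)))) (HoldsN.splitB (HoldsN.splitB (HoldsN.splitA (HoldsN.splitA (HoldsN.splitA l1149 l1150) (HoldsN.splitB l1151 (HoldsN.splitB l1152 l1153))) (HoldsN.splitA l1154 (HoldsN.splitA l1155 l1156))) l1157) (HoldsN.splitA (HoldsN.splitA l1164 l1165) (HoldsN.splitB l1166 l1167)))) (HoldsN.splitA (HoldsN.splitB (HoldsN.splitB (HoldsN.splitB (HoldsN.splitB l1130 l1131) l1132) (HoldsN.splitB l1133 (HoldsN.splitB (HoldsN.splitA l1134 (HoldsN.splitA l1135 l1136)) l1137))) (HoldsN.splitB (HoldsN.splitB (HoldsN.splitA l1158 l1159) l1160) l1168)) (HoldsN.splitB (HoldsN.splitB l1138 (HoldsN.splitB l1139 l1140)) (HoldsN.splitB (HoldsN.splitB (HoldsN.splitA l1161 l1162) l1163) l1169))))))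 (HoldsN.splitA (HoldsN.splitA (HoldsN.splitB (HoldsN.splitB (HoldsN.splitB (HoldsN.splitB l1170 l1171) (HoldsN.splitA (HoldsN.splitA l1177 l1178) l1179)) (HoldsN.splitB (HoldsN.splitA l1183 l1184) (HoldsN.splitB l1185 (HoldsN.splitA l1186 l1187)))) (HoldsN.splitB (HoldsN.splitB (HoldsN.splitA l1194 (HoldsN.splitB (HoldsN.splitB l1195 l1196) l1197)) (HoldsN.splitB l1198 (HoldsN.splitA l1199 (HoldsN.splitB l1200 l1201)))) (HoldsN.splitB (HoldsN.splitB l1240 l1241) (HoldsN.splitA l1246 (HoldsN.splitB l1247 l1248))))) (HoldsN.splitA (HoldsN.splitB (HoldsN.splitB (HoldsN.splitB (HoldsN.splitB l1172 (HoldsN.splitB l1173 l1174)) l1180) (HoldsN.splitB l1188 (HoldsN.splitB l1189 l1190))) (HoldsN.splitB (HoldsN.splitB (HoldsN.splitB (HoldsN.splitB (HoldsN.splitA l1202 (HoldsN.splitA (HoldsN.splitB l1203 l1204) l1205)) l1206) (HoldsN.splitA l1207 (HoldsN.splitA (HoldsN.splitB l1208 (HoldsN.splitB l1209 l1210)) l1211))) (HoldsN.splitB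 (HoldsN.splitA (HoldsN.splitB l1212 (HoldsN.splitB (HoldsN.splitA (HoldsN.splitA (HoldsN.splitA l1213 l1214) l1215) (HoldsN.splitA l1216 (HoldsN.splitA l1217 l1218))) l1219)) (HoldsN.splitA (HoldsN.splitB (HoldsN.splitB (HoldsN.splitB (HoldsN.splitA l1220 (HoldsN.splitA l1221 l1222)) l1223) (HoldsN.splitA l1224 (HoldsN.splitA l1225 l1226))) (HoldsN.splitB l1227 (HoldsN.splitB l1228 l1229))) (HoldsN.splitB l1230 (HoldsN.splitB (HoldsN.splitA l1231 l1232) l1233)))) (HoldsN.splitB (HoldsN.splitA l1234 l1235) l1236))) (HoldsN.splitB (HoldsN.splitB l1242 l1243) (HoldsN.splitB (HoldsN.splitB l1249 l1250) l1251)))) (HoldsN.splitB (HoldsN.splitB (HoldsN.splitB (HoldsN.splitB l1175 l1176) (HoldsN.splitA l1181 l1182)) (HoldsN.splitB l1191 (HoldsN.splitB l1192 l1193))) (HoldsN.splitB (HoldsN.splitB l1237 (HoldsN.splitB l1238 l1239)) (HoldsN.splitB (HoldsN.splitB l1244 l1245) l1252))))) (HoldsN.splitA (HoldsN.splitB (HoldsN.splitA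 (HoldsN.splitB (HoldsN.splitB (HoldsN.splitB l1253 l1254) l1256) (HoldsN.splitB l1258 (HoldsN.splitB l1259 l1260))) (HoldsN.splitB (HoldsN.splitB l1255 l1257) l1261)) (HoldsN.splitB (HoldsN.splitA l1268 l1269) (HoldsN.splitB (HoldsN.splitA l1273 l1274) l1275))) (HoldsN.splitB (HoldsN.splitB (HoldsN.splitB (HoldsN.splitB l1262 l1263) l1264) (HoldsN.splitB l1265 (HoldsN.splitB l1266 l1267))) (HoldsN.splitB (HoldsN.splitB l1270 (HoldsN.splitB l1271 l1272)) (HoldsN.splitB (HoldsN.splitB l1276 l1277) l1278))))))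

theorem merge2 (a c : Tp) (ha : InSx 1 a) (hc : InSx 1 c) :
    KT (potL X2.Lc) (sc ss a) (sc ss c) ≤ X2.rhs (sc ss a) (sc ss c) :=
  KT_le_all2 (by norm_num) (by norm_num) root2_0 root2_1 a c ha hc

theorem merge3 (a c : Tp) (ha : InSx 1 a) (hc : InSx 1 c) :
    KT (potL X3.Lc) a (sc ss c) ≤ X3.rhs a (sc ss c) :=
  KT_le_all (by norm_num) (by norm_num) root3_0 root3_1 a c ha hc

theorem merge4 (a c : Tp) (ha : InSx 1 a) (hc : InSx 1 c) :
    KT (potL X4.Lc) a (sc ss c) ≤ X4.rhs a (sc ss c) :=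
  KT_le_all (by norm_num) (by norm_num) root4_0 root4_1 a c ha hc


end

end Vale.Agent.Lib.P154N.D4
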